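import Vale.Agent.P201.Z.LA.LA1
import Vale.Agent.P201.Z.C.Defs

/-!
P201, part LA2: pairing of the links, labels.
-/

namespace Vale.Agent.P201.Z

open Finset

variable {p : Pat} {n : ℕ} {σ : Equiv.Perm (Cel p n)}

theorem rev_rev (l : Lbl p) : rev (rev l) = l := by
  obtain ⟨a, b, d⟩ := l
  simp [rev]

theorem lam_swap (q q' : Port p n) : lam (q', q) = rev (lam (q, q')) := by
  simp [lam, rev]

/-- no unit has a symmetric label -/
theorem lam_ne_rev {q q' : Port p n} (hb : blk q.1 = blk q'.1) (hne : q ≠ q') :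
    lam (q, q') ≠ rev (lam (q, q')) := by
  intro h
  simp only [lam, rev, Prod.mk.injEq] at h
  obtain ⟨h1, -, h3⟩ := h
  exact hne (port_ext h1 hb (by omega))

namespace Glue

variable (G : Glue σ)

/-- the links `s`, `s'` are paired -/
def Pair (s s' : G.S) : Prop :=
  ∃ v v', G.Y s = some v ∧ G.X v = some s' ∧ G.Y s' = some v' ∧ G.X v' = some s ∧ v' ≠ v ∧
    G.inc v + G.inc v' = 0

/-- the link `s` is paired -/
def Paired (s : G.S) : Prop := ∃ s', G.Pair s s'

variable {G}

theorem Pair.symm {s s' : G.S} (h : G.Pair s s') : G.Pair s' s := by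
  obtain ⟨v, v', h1, h2, h3, h4, h5, h6⟩ := h
  exact ⟨v', v, h3, h4, h1, h2, Ne.symm h5, by rw [add_comm]; exact h6⟩

theorem Pair.unique {s s' t : G.S} (h : G.Pair s s') (h' : G.Pair s t) : s' = t := by
  obtain ⟨v, v', h1, h2, -, -, -, -⟩ := h
  obtain ⟨w, w', k1, k2, -, -, -, -⟩ := h'
  rw [h1, Option.some.injEq] at k1
  subst k1
  rw [h2, Option.some.injEq] at k2
  exact k2

theorem paired_iff {s v : G.S} (h : G.Y s = some v) : G.Paired s ↔ G.Good2 v := by
  constructor
  · rintro ⟨s', v1, v', h1, h2, h3, h4, h5, h6⟩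
    rw [h, Option.some.injEq] at h1
    subst h1
    exact ⟨v', h5, XY_eq.2 ⟨s', h2, h3⟩, XY_eq.2 ⟨s, h4, h⟩, h6⟩
  · rintro ⟨v', h5, h1, h2, h6⟩
    obtain ⟨s', h3, h4⟩ := XY_eq.1 h1
    obtain ⟨u, h7, h8⟩ := XY_eq.1 h2
    have : u = s := G.Y.inj h8 h
    subst this
    exact ⟨s', v, v', h, h3, h4, h7, h5, h6⟩

/-- the labels of paired units are reversed -/
theorem Pair.lam_eq (hR : G.Red) {s s' v v' : G.S} (h : G.Pair s s') (h1 : G.Y s = some v)
    (h2 : G.Y s' = some v') :
    lam (mt σ (G.ε s'), G.ε v') = rev (lam (mt σ (G.ε s), G.ε v)) := by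
  obtain ⟨w, w', k1, k2, k3, k4, -, k6⟩ := h
  rw [h1, Option.some.injEq] at k1
  rw [h2, Option.some.injEq] at k3
  subst k1 k3
  rw [inc_eq k2 h2, inc_eq k4 h1] at k6
  have e1 := (hR.x v s' k2).1
  have e2 := (hR.x v' s k4).1
  simp only [lam, rev, Prod.mk.injEq]
  exact ⟨e1.symm, e2, by omega⟩

/-- the unordered units of paired links are different -/
theorem Pair.unit_ne (hR : G.Red) {s s' v v' : G.S} (h : G.Pair s s') (h1 : G.Y s = some v)
    (h2 : G.Y s' = some v') :
    ¬ (mt σ (G.ε s') = mt σ (G.ε s) ∧ G.ε v' = G.ε v) ∧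
    ¬ (mt σ (G.ε s') = G.ε v ∧ G.ε v' = mt σ (G.ε s)) := by
  have hl := h.lam_eq hR h1 h2
  obtain ⟨w, w', k1, k2, k3, k4, -, k6⟩ := h
  rw [h1, Option.some.injEq] at k1
  rw [h2, Option.some.injEq] at k3
  subst k1 k3
  constructor
  · rintro ⟨h3, h4⟩
    rw [h3, h4] at hl
    have h5 := hR.y s v h1
    exact lam_ne_rev h5.1 (Ne.symm h5.2) hl
  · rintro ⟨h3, -⟩
    exact (hR.x v s' k2).2 h3.symm

/-- slope: if `v = Y s` lies on an `X`-cycle of length two, the partner of `v` is the link before
the partner of `s` -/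
theorem Pair.slope {s s' v v' : G.S} (h : G.Pair s s') (h1 : G.Y s = some v)
    (hX : G.GoodX v) (h' : G.Pair v v') : G.Y v' = some s' := by
  obtain ⟨w, w', k1, k2, k3, k4, -, k6⟩ := h
  rw [h1, Option.some.injEq] at k1
  subst k1
  obtain ⟨z, z', l1, l2, l3, l4, -, -⟩ := h'
  obtain ⟨t, t1, t2⟩ := hX
  have e1 : z' = t := G.X.inj l4 t2
  subst e1
  rw [k2, Option.some.injEq] at t1
  rw [l3, t1]

open Classical in
/-- number of unpaired links -/
theorem unpaired_le (G : Glue σ) :
    (univ.filter fun s => (G.Y s).isSome ∧ ¬ G.Paired s).card ≤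
      (Fintype.card G.S - domc G.X) + G.badM := by
  -- elements outside the range of `X`
  have hran : (univ.filter fun s => ¬ (G.X.symm s).isSome).card = Fintype.card G.S - domc G.X := by
    have h1 : (univ.filter fun s => (G.X.symm s).isSome).card = domc G.X := by
      unfold domc
      refine Finset.card_bij' (fun s hs => (G.X.symm s).get (mem_filter.1 hs).2)
        (fun s hs => (G.X s).get (mem_filter.1 hs).2) ?_ ?_ ?_ ?_
      · intro s hs
        rw [mem_filter]
        refine ⟨mem_univ _, ?_⟩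
        have : G.X ((G.X.symm s).get (mem_filter.1 hs).2) = some s := by
          rw [← PEquiv.eq_some_iff]
          exact (Option.some_get _).symm
        rw [this]
        rfl
      · intro s hs
        rw [mem_filter]
        refine ⟨mem_univ _, ?_⟩
        have : G.X.symm ((G.X s).get (mem_filter.1 hs).2) = some s := by
          rw [PEquiv.eq_some_iff]
          exact (Option.some_get _).symm
        rw [this]
        rfl
      · intro s hs
        have : G.X ((G.X.symm s).get (mem_filter.1 hs).2) = some s := by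
          rw [← PEquiv.eq_some_iff]
          exact (Option.some_get _).symm
        simp only [this, Option.get_some]
      · intro s hs
        have : G.X.symm ((G.X s).get (mem_filter.1 hs).2) = some s := by
          rw [PEquiv.eq_some_iff]
          exact (Option.some_get _).symm
        simp only [this, Option.get_some]
    have h2 := Finset.card_filter_add_card_filter_not (s := (univ : Finset G.S))
      (fun s => (G.X.symm s).isSome)
    rw [h1, Finset.card_univ] at h2
    omega
  -- the others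
  have hsub : (univ.filter fun s => (G.Y s).isSome ∧ ¬ G.Paired s) ⊆
      (univ.filter fun s => ¬ (G.X.symm s).isSome) ∪
      ((univ.filter fun s => (G.XY s).isSome ∧ ¬ G.Good2 s).image fun s0 => (G.X s0).getD s0) := by
    intro s hs
    rw [mem_filter] at hs
    obtain ⟨-, h1, h2⟩ := hs
    rw [mem_union]
    by_cases h3 : (G.X.symm s).isSome
    · right
      obtain ⟨s0, h4⟩ := Option.isSome_iff_exists.1 h3
      rw [PEquiv.eq_some_iff] at h4
      obtain ⟨v, hv⟩ := Option.isSome_iff_exists.1 h1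
      rw [mem_image]
      refine ⟨s0, mem_filter.2 ⟨mem_univ _, ?_, ?_⟩, ?_⟩
      · rw [XY_eq.2 ⟨s, h4, hv⟩]
        rfl
      · rintro ⟨t, t1, t2, t3, t4⟩
        rw [XY_eq.2 ⟨s, h4, hv⟩, Option.some.injEq] at t2
        subst t2
        exact h2 ((paired_iff hv).2 ⟨s0, Ne.symm t1, t3, XY_eq.2 ⟨s, h4, hv⟩,
          by rw [add_comm]; exact t4⟩)
      · rw [h4]
        rfl
    · left
      rw [mem_filter]
      exact ⟨mem_univ _, h3⟩
  refine (card_le_card hsub).trans ((card_union_le _ _).trans ?_)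
  rw [hran]
  unfold badM
  have := card_image_le (s := univ.filter fun s => (G.XY s).isSome ∧ ¬ G.Good2 s)
    (f := fun s0 => (G.X s0).getD s0)
  omega

open Classical in
/-- number of breaks -/
theorem breaks_le (G : Glue σ) :
    (univ.filter fun s => G.Paired s ∧ ∀ v, G.Y s = some v → ¬ (G.GoodX v ∧ G.Paired v)).card ≤
      G.badO + (Fintype.card G.S - domc G.Y) + G.badM := by
  have hsub : (univ.filter fun s => G.Paired s ∧
      ∀ v, G.Y s = some v → ¬ (G.GoodX v ∧ G.Paired v)).card ≤
      ((univ.filter fun v => (G.X v).isSome ∧ ¬ G.GoodX v) ∪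
        (univ.filter fun v => ¬ (G.Y v).isSome) ∪
        (univ.filter fun v => (G.Y v).isSome ∧ ¬ G.Paired v ∧ (G.X.symm v).isSome)).card := by
    refine Finset.card_le_card_of_injOn (fun s => (G.Y s).getD s) ?_ ?_
    · intro s hs
      have hs' := (mem_filter.1 (Finset.mem_coe.1 hs)).2
      obtain ⟨⟨s', v, v', h1, h2, h3, h4, h5, h6⟩, hcon⟩ := hs'
      have h7 := hcon v h1
      simp only [h1, Option.getD_some]
      rw [Finset.mem_coe, mem_union, mem_union]
      by_cases hg : G.GoodX v
      · by_cases hy : (G.Y v).isSome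
        · right
          rw [mem_filter]
          refine ⟨mem_univ _, hy, fun hp => h7 ⟨hg, hp⟩, ?_⟩
          obtain ⟨t, t1, t2⟩ := hg
          have : G.X.symm v = some t := (PEquiv.eq_some_iff _).2 t2
          rw [this]
          rfl
        · left; right
          rw [mem_filter]
          exact ⟨mem_univ _, hy⟩
      · left; left
        rw [mem_filter]
        refine ⟨mem_univ _, ?_, hg⟩
        rw [h2]
        rfl
    · intro s hs t ht hst
      obtain ⟨⟨s', v, v', h1, -⟩, -⟩ := (mem_filter.1 (Finset.mem_coe.1 hs)).2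
      obtain ⟨⟨t', w, w', k1, -⟩, -⟩ := (mem_filter.1 (Finset.mem_coe.1 ht)).2
      simp only [h1, k1, Option.getD_some] at hst
      subst hst
      exact G.Y.inj h1 k1
  have h2 : (univ.filter fun v => ¬ (G.Y v).isSome).card = Fintype.card G.S - domc G.Y := by
    have h2 := Finset.card_filter_add_card_filter_not (s := (univ : Finset G.S))
      (fun s => (G.Y s).isSome)
    rw [Finset.card_univ] at h2
    unfold domc
    omega
  have h3 : (univ.filter fun v => (G.Y v).isSome ∧ ¬ G.Paired v ∧ (G.X.symm v).isSome).card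
      ≤ G.badM := by
    have hsub3 : (univ.filter fun v => (G.Y v).isSome ∧ ¬ G.Paired v ∧ (G.X.symm v).isSome) ⊆
        ((univ.filter fun s => (G.XY s).isSome ∧ ¬ G.Good2 s).image
          fun s0 => (G.X s0).getD s0) := by
      intro s hs
      rw [mem_filter] at hs
      obtain ⟨-, h1, h2, h3⟩ := hs
      obtain ⟨s0, h4⟩ := Option.isSome_iff_exists.1 h3
      rw [PEquiv.eq_some_iff] at h4
      obtain ⟨v, hv⟩ := Option.isSome_iff_exists.1 h1
      rw [mem_image]
      refine ⟨s0, mem_filter.2 ⟨mem_univ _, ?_, ?_⟩, ?_⟩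
      · rw [XY_eq.2 ⟨s, h4, hv⟩]
        rfl
      · rintro ⟨t, t1, t2, t3, t4⟩
        rw [XY_eq.2 ⟨s, h4, hv⟩, Option.some.injEq] at t2
        subst t2
        exact h2 ((paired_iff hv).2 ⟨s0, Ne.symm t1, t3, XY_eq.2 ⟨s, h4, hv⟩,
          by rw [add_comm]; exact t4⟩)
      · rw [h4]
        rfl
    exact (card_le_card hsub3).trans card_image_le
  have h4 := card_union_le ((univ.filter fun v => (G.X v).isSome ∧ ¬ G.GoodX v) ∪
        (univ.filter fun v => ¬ (G.Y v).isSome))
        (univ.filter fun v => (G.Y v).isSome ∧ ¬ G.Paired v ∧ (G.X.symm v).isSome)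
  have h5 := card_union_le (univ.filter fun v => (G.X v).isSome ∧ ¬ G.GoodX v)
        (univ.filter fun v => ¬ (G.Y v).isSome)
  unfold badO
  omega

end Glue

end Vale.Agent.P201.Z
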