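import Vale.Agent.P201.Z.LA.Gir
import Vale.Agent.P201.Z.LA.LA2

/-!
P201, part LA: geometry of two chains of faces (helper621).
-/

namespace Vale.Agent.P201.Z.CodeGeo

open Finset

variable {p : Pat} {n : ℕ} {σ : Equiv.Perm (Cel p n)} {G : Glue σ}

theorem join_aux (f : ℕ → Port p n) (m : ℕ) (c : Port p n)
    (h : ∀ k, m = k + 1 → c ≠ mt σ (f k)) :
    ∀ a ∈ ((List.range m).map f).getLast?, ∀ b ∈ [c].head?, b ≠ mt σ a := by
  intro a ha b hb
  simp only [List.head?_cons, Option.mem_def, Option.some.injEq] at hb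
  subst hb
  cases m with
  | zero => simp at ha
  | succ k =>
    rw [List.range_succ, List.map_append, List.getLast?_append] at ha
    simp only [List.map_cons, List.map_nil, List.getLast?_singleton, Option.some_or,
      Option.mem_def, Option.some.injEq] at ha
    subst ha
    exact h k rfl

theorem rw_start (hR : G.Red) {a : ℕ → G.S} {m : ℕ}
    (h : ∀ x < m, G.Y (a x) = some (a (x + 1))) :
    RW σ (blk (G.ε (a 0)).1) ((List.range m).map fun x => G.ε (a x)) (blk (G.ε (a m)).1) := by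
  induction m with
  | zero => exact rfl
  | succ m ih =>
    rw [List.range_succ, List.map_append]
    refine (ih fun x hx => h x (by omega)).append (v := blk (G.ε (a m)).1) ?_ ?_
    · have h1 := RW.single (σ := σ) (G.ε (a m))
      rw [(hR.y _ _ (h m (by omega))).1] at h1
      exact h1
    · refine join_aux _ m _ fun k hk => ?_
      subst hk
      exact (hR.y _ _ (h k (by omega))).2

theorem rw_end (hR : G.Red) {a : ℕ → G.S} {m : ℕ}
    (h : ∀ x < m, G.Y (a x) = some (a (x + 1))) :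
    RW σ (blk (mt σ (G.ε (a 0))).1) ((List.range m).map fun x => G.ε (a (x + 1)))
      (blk (mt σ (G.ε (a m))).1) := by
  induction m with
  | zero => exact rfl
  | succ m ih =>
    rw [List.range_succ, List.map_append]
    refine (ih fun x hx => h x (by omega)).append (v := blk (mt σ (G.ε (a m))).1) ?_ ?_
    · have h1 := RW.single (σ := σ) (G.ε (a (m + 1)))
      rw [← (hR.y _ _ (h m (by omega))).1] at h1
      exact h1
    · refine join_aux _ m _ fun k hk => ?_
      subst hk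
      exact (hR.y _ _ (h (k + 1) (by omega))).2

theorem list_aux {A : Type} {f f' : ℕ → A} {m m' : ℕ}
    (h : (List.range m).map f = (List.range m').map f') : m = m' ∧ ∀ x < m, f x = f' x := by
  have h1 : m = m' := by
    have := congrArg List.length h
    simpa using this
  subst h1
  refine ⟨rfl, fun x hx => ?_⟩
  have h2 := List.getElem_of_eq h (i := x) (by simpa using hx)
  simpa using h2

theorem rvw_aux (f : ℕ → Port p n) (m : ℕ) :
    rvw σ ((List.range m).map f) = (List.range m).map fun x => mt σ (f (m - 1 - x)) := by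
  unfold rvw
  apply List.ext_getElem
  · simp
  · intro i h1 h2
    simp

variable {g : ℕ}

theorem ssp (hR : G.Red) (hg : Girth σ g) {a b : ℕ → G.S} {m m' : ℕ}
    (ha : ∀ x < m, G.Y (a x) = some (a (x + 1))) (hb : ∀ x < m', G.Y (b x) = some (b (x + 1)))
    (hlt : m + m' < g) (h0 : blk (G.ε (a 0)).1 = blk (G.ε (b 0)).1)
    (h1 : blk (G.ε (a m)).1 = blk (G.ε (b m')).1) :
    m = m' ∧ ∀ x < m, G.ε (a x) = G.ε (b x) := by
  have e1 := rw_start hR ha
  have e2 := rw_start hR hb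
  rw [← h0, ← h1] at e2
  exact list_aux (e1.unique hg e2 (by simpa using hlt))

theorem ssm (hR : G.Red) (hg : Girth σ g) {a b : ℕ → G.S} {m m' : ℕ}
    (ha : ∀ x < m, G.Y (a x) = some (a (x + 1))) (hb : ∀ x < m', G.Y (b x) = some (b (x + 1)))
    (hlt : m + m' < g) (h0 : blk (G.ε (a 0)).1 = blk (G.ε (b m')).1)
    (h1 : blk (G.ε (a m)).1 = blk (G.ε (b 0)).1) :
    m = m' ∧ ∀ x < m, G.ε (a x) = mt σ (G.ε (b (m' - 1 - x))) := by
  have e1 := rw_start hR ha
  have e2 := (rw_start hR hb).reverse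
  rw [← h0, ← h1, rvw_aux] at e2
  exact list_aux (e1.unique hg e2 (by simpa using hlt))

theorem sep (hR : G.Red) (hg : Girth σ g) {a b : ℕ → G.S} {m m' : ℕ}
    (ha : ∀ x < m, G.Y (a x) = some (a (x + 1))) (hb : ∀ x < m', G.Y (b x) = some (b (x + 1)))
    (hlt : m + m' < g) (h0 : blk (G.ε (a 0)).1 = blk (mt σ (G.ε (b 0))).1)
    (h1 : blk (G.ε (a m)).1 = blk (mt σ (G.ε (b m'))).1) :
    m = m' ∧ ∀ x < m, G.ε (a x) = G.ε (b (x + 1)) := by
  have e1 := rw_start hR ha
  have e2 := rw_end hR hb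
  rw [← h0, ← h1] at e2
  exact list_aux (e1.unique hg e2 (by simpa using hlt))

theorem sem (hR : G.Red) (hg : Girth σ g) {a b : ℕ → G.S} {m m' : ℕ}
    (ha : ∀ x < m, G.Y (a x) = some (a (x + 1))) (hb : ∀ x < m', G.Y (b x) = some (b (x + 1)))
    (hlt : m + m' < g) (h0 : blk (G.ε (a 0)).1 = blk (mt σ (G.ε (b m'))).1)
    (h1 : blk (G.ε (a m)).1 = blk (mt σ (G.ε (b 0))).1) :
    m = m' ∧ ∀ x < m, G.ε (a x) = mt σ (G.ε (b (m' - 1 - x + 1))) := by
  have e1 := rw_start hR ha
  have e2 := (rw_end hR hb).reverse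
  rw [← h0, ← h1, rvw_aux] at e2
  exact list_aux (e1.unique hg e2 (by simpa using hlt))

theorem eep (hR : G.Red) (hg : Girth σ g) {a b : ℕ → G.S} {m m' : ℕ}
    (ha : ∀ x < m, G.Y (a x) = some (a (x + 1))) (hb : ∀ x < m', G.Y (b x) = some (b (x + 1)))
    (hlt : m + m' < g) (h0 : blk (mt σ (G.ε (a 0))).1 = blk (mt σ (G.ε (b 0))).1)
    (h1 : blk (mt σ (G.ε (a m))).1 = blk (mt σ (G.ε (b m'))).1) :
    m = m' ∧ ∀ x < m, G.ε (a (x + 1)) = G.ε (b (x + 1)) := by
  have e1 := rw_end hR ha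
  have e2 := rw_end hR hb
  rw [← h0, ← h1] at e2
  exact list_aux (e1.unique hg e2 (by simpa using hlt))

theorem eem (hR : G.Red) (hg : Girth σ g) {a b : ℕ → G.S} {m m' : ℕ}
    (ha : ∀ x < m, G.Y (a x) = some (a (x + 1))) (hb : ∀ x < m', G.Y (b x) = some (b (x + 1)))
    (hlt : m + m' < g) (h0 : blk (mt σ (G.ε (a 0))).1 = blk (mt σ (G.ε (b m'))).1)
    (h1 : blk (mt σ (G.ε (a m))).1 = blk (mt σ (G.ε (b 0))).1) :
    m = m' ∧ ∀ x < m, G.ε (a (x + 1)) = mt σ (G.ε (b (m' - 1 - x + 1))) := by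
  have e1 := rw_end hR ha
  have e2 := (rw_end hR hb).reverse
  rw [← h0, ← h1, rvw_aux] at e2
  exact list_aux (e1.unique hg e2 (by simpa using hlt))

end Vale.Agent.P201.Z.CodeGeo
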