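import Vale.Agent.P201.Z.LA.Cyc

/-!
P201, part LA: fans are reduced walks; the girth bound for closed fans.
-/

namespace Vale.Agent.P201.Z

open Finset

section minper

variable {S : Type} {f : S ≃. S}

theorem exists_minper {s : S} (hs : Per f s) : ∃ k, 0 < k ∧ pit f k s = some s ∧
    ∀ j, 0 < j → j < k → pit f j s ≠ some s := by
  classical
  refine ⟨Nat.find hs, (Nat.find_spec hs).1, (Nat.find_spec hs).2, fun j hj hjk h => ?_⟩
  exact Nat.find_min hs hjk ⟨hj, h⟩

theorem pit_isSome {s : S} {k j : ℕ} (hjk : j ≤ k) (h : (pit f k s).isSome) :
    (pit f j s).isSome := by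
  obtain ⟨i, rfl⟩ := Nat.exists_eq_add_of_le hjk
  rw [pit_add] at h
  cases hj : pit f j s with
  | none => rw [hj] at h; exact absurd h (by simp)
  | some u => rfl

variable [Fintype S]

/-- The orbit of a periodic point has at least as many elements as the minimal period. -/
theorem minper_le {s : S} {k : ℕ} (hk : pit f k s = some s)
    (hmin : ∀ j, 0 < j → j < k → pit f j s ≠ some s) : k ≤ (orb f s).card := by
  classical
  have hsome : ∀ i : Fin k, (pit f i s).isSome := fun i =>
    pit_isSome i.2.le (by rw [hk]; rfl)
  let F : Fin k → S := fun i => (pit f i s).get (hsome i)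
  have hF : ∀ i : Fin k, pit f i s = some (F i) := fun i => (Option.some_get _).symm
  have key : ∀ i j : Fin k, i < j → F i ≠ F j := by
    intro i j hij h
    have h1 : pit f (k - j) (F j) = some s := by
      have h2 : pit f (j + (k - j)) s = some s := by
        rw [Nat.add_sub_cancel' j.2.le]
        exact hk
      rw [pit_add, hF j] at h2
      exact h2
    have h3 : pit f (i + (k - j)) s = some s := by
      rw [pit_add, hF i, h]
      exact h1
    have := i.2
    have := j.2
    have hij' : (i : ℕ) < j := hij
    exact hmin _ (by omega) (by omega) h3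
  have hinj : Function.Injective F := by
    intro i j h
    rcases lt_trichotomy i j with h1 | h1 | h1
    · exact absurd h (key i j h1)
    · exact h1
    · exact absurd h.symm (key j i h1)
  have himg : univ.image F ⊆ orb f s := by
    intro t ht
    obtain ⟨i, _, rfl⟩ := mem_image.1 ht
    exact mem_orb.2 ⟨i, hF i⟩
  have := card_le_card himg
  rwa [card_image_of_injective _ hinj, card_univ, Fintype.card_fin] at this

end minper

variable {p : Pat} {n : ℕ} {σ : Equiv.Perm (Cel p n)}

namespace Glue

variable {G : Glue σ}

/-- the ports of a fan starting at `s` with `k + 1` squares -/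
noncomputable def fan (G : Glue σ) : ℕ → G.S → List (Port p n)
  | 0, s => [G.ε s]
  | k + 1, s => G.ε s :: (match G.Y s with
    | none => []
    | some u => fan G k u)

theorem fan_succ {k : ℕ} {s u : G.S} (h : G.Y s = some u) :
    G.fan (k + 1) s = G.ε s :: G.fan k u := by
  show G.ε s :: (match G.Y s with
    | none => []
    | some u => fan G k u) = _
  rw [h]

theorem fan_head (k : ℕ) (s : G.S) : (G.fan k s).head? = some (G.ε s) := by
  cases k <;> rfl

theorem fan_walk (h : G.Red) {k : ℕ} {s : G.S} (hk : (pit G.Y k s).isSome) :
    IsWalk σ (G.fan k s) := by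
  induction k generalizing s with
  | zero => exact List.isChain_singleton _
  | succ k ih =>
    rw [pit_succ] at hk
    cases hY : G.Y s with
    | none => rw [hY] at hk; exact absurd hk (by simp)
    | some u =>
      rw [hY] at hk
      rw [fan_succ hY]
      have h1 := ih hk
      unfold IsWalk at h1 ⊢
      refine List.IsChain.cons h1 ?_
      intro y hy
      rw [fan_head] at hy
      obtain rfl := Option.some.inj hy
      exact h.y s u hY

theorem fan_last {k : ℕ} {s t : G.S} (hk : pit G.Y k s = some t) :
    (G.fan k s).getLast? = some (G.ε t) := by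
  induction k generalizing s with
  | zero =>
    rw [pit_zero] at hk
    obtain rfl := Option.some.inj hk
    rfl
  | succ k ih =>
    rw [pit_succ] at hk
    cases hY : G.Y s with
    | none => rw [hY] at hk; exact absurd hk (by simp)
    | some u =>
      rw [hY] at hk
      rw [fan_succ hY, List.getLast?_cons, ih hk]
      rfl

theorem fan_length {k : ℕ} {s t : G.S} (hk : pit G.Y k s = some t) :
    (G.fan k s).length = k + 1 := by
  induction k generalizing s with
  | zero => rfl
  | succ k ih =>
    rw [pit_succ] at hk
    cases hY : G.Y s with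
    | none => rw [hY] at hk; exact absurd hk (by simp)
    | some u =>
      rw [hY] at hk
      rw [fan_succ hY, List.length_cons, ih hk]

/-- the `i`-th port of a fan -/
theorem fan_getElem? {k : ℕ} {s t u : G.S} (hk : pit G.Y k s = some t) {i : ℕ} (hi : i ≤ k)
    (hu : pit G.Y i s = some u) : (G.fan k s)[i]? = some (G.ε u) := by
  induction k generalizing s i with
  | zero =>
    obtain rfl : i = 0 := by omega
    rw [pit_zero] at hu
    obtain rfl := Option.some.inj hu
    rfl
  | succ k ih =>
    rw [pit_succ] at hk
    cases hY : G.Y s with
    | none => rw [hY] at hk; exact absurd hk (by simp)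
    | some v =>
      rw [hY] at hk
      rw [fan_succ hY]
      cases i with
      | zero =>
        rw [pit_zero] at hu
        obtain rfl := Option.some.inj hu
        rfl
      | succ i =>
        rw [pit_succ, hY] at hu
        rw [List.getElem?_cons_succ]
        exact ih hk (by omega) hu

/-- A closed fan is a closed reduced walk. -/
theorem girth_per (h : G.Red) {g : ℕ} (hg : Girth σ g) {k : ℕ} (hk0 : 0 < k) {s : G.S}
    (hk : pit G.Y k s = some s) : g ≤ k := by
  obtain ⟨k, rfl⟩ : ∃ j, k = j + 1 := ⟨k - 1, by omega⟩
  rw [pit_succ'] at hk
  cases ht : pit G.Y k s with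
  | none => rw [ht] at hk; exact absurd hk (by simp)
  | some t =>
    rw [ht] at hk
    have hY : G.Y t = some s := hk
    have h1 := hg (G.fan k s) (by
      intro h0
      have := fan_head (G := G) k s
      rw [h0] at this
      exact absurd this (by simp)) ⟨fan_walk h (by rw [ht]; rfl), by
        intro a ha b hb
        rw [fan_last ht] at ha
        rw [fan_head] at hb
        obtain rfl := Option.some.inj ha
        obtain rfl := Option.some.inj hb
        exact h.y t s hY⟩
    rwa [fan_length ht] at h1

theorem girth_orb (h : G.Red) {g : ℕ} (hg : Girth σ g) {s : G.S} (hs : Per G.Y s) :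
    g ≤ (orb G.Y s).card := by
  obtain ⟨k, hk0, hk, hmin⟩ := exists_minper hs
  exact (girth_per h hg hk0 hk).trans (minper_le hk hmin)

/-- `g` times the number of closed fans is at most the number of squares. -/
theorem girth_cyc (h : G.Red) {g : ℕ} (hg : Girth σ g) : g * cyc G.Y ≤ Fintype.card G.S := by
  classical
  refine (cyc_weight0 G.Y (fun _ => 1) g ?_).trans ?_
  · intro s hs
    rw [sum_const, smul_eq_mul, mul_one]
    exact girth_orb h hg hs
  · rw [sum_const, smul_eq_mul, mul_one]
    exact card_le_univ _

end Glue

end Vale.Agent.P201.Z
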