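import Vale.Agent.P201.Z.LA.LA2

/-!
P201, part LA: gluings with the same combinatorics (helper556).  If `G` and `G'` are similar, the
used ports and blocks of `G` correspond to those of `G'`.
-/

namespace Vale.Agent.P201.Z

open Finset

variable {p : Pat} {n : ℕ} {σ σ' σ'' : Equiv.Perm (Cel p n)}

/-- the port of a half-side: `(s, false)` is the start, `(s, true)` the end corner -/
noncomputable def hp (G : Glue σ) (h : G.S × Bool) : Port p n := if h.2 then mt σ (G.ε h.1) else G.ε h.1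

@[simp] theorem hp_false (G : Glue σ) (s : G.S) : hp G (s, false) = G.ε s := rfl

@[simp] theorem hp_true (G : Glue σ) (s : G.S) : hp G (s, true) = mt σ (G.ε s) := rfl

theorem mt_hp (G : Glue σ) (s : G.S) (a : Bool) : mt σ (hp G (s, a)) = hp G (s, !a) := by
  cases a
  · rfl
  · simp [mt_mt]

/-- similar gluings -/
structure Sim (G : Glue σ) (G' : Glue σ') where
  φ : G.S ≃ G'.S
  port : ∀ h k : G.S × Bool, hp G h = hp G k ↔ hp G' (φ h.1, h.2) = hp G' (φ k.1, k.2)
  block : ∀ h k : G.S × Bool, blk (hp G h).1 = blk (hp G k).1 ↔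
    blk (hp G' (φ h.1, h.2)).1 = blk (hp G' (φ k.1, k.2)).1
  y : ∀ s s', G.Y s = some s' ↔ G'.Y (φ s) = some (φ s')
  pair : ∀ s s', G.Pair s s' ↔ G'.Pair (φ s) (φ s')

/-- similarity from separate conditions -/
def Sim.mk' {G : Glue σ} {G' : Glue σ'} (φ : G.S ≃ G'.S)
    (p1 : ∀ s s', G.ε s = G.ε s' ↔ G'.ε (φ s) = G'.ε (φ s'))
    (p2 : ∀ s s', G.ε s = mt σ (G.ε s') ↔ G'.ε (φ s) = mt σ' (G'.ε (φ s')))
    (b1 : ∀ s s', blk (G.ε s).1 = blk (G.ε s').1 ↔ blk (G'.ε (φ s)).1 = blk (G'.ε (φ s')).1)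
    (b2 : ∀ s s', blk (G.ε s).1 = blk (mt σ (G.ε s')).1 ↔
      blk (G'.ε (φ s)).1 = blk (mt σ' (G'.ε (φ s'))).1)
    (b3 : ∀ s s', blk (mt σ (G.ε s)).1 = blk (mt σ (G.ε s')).1 ↔
      blk (mt σ' (G'.ε (φ s))).1 = blk (mt σ' (G'.ε (φ s'))).1)
    (y : ∀ s s', G.Y s = some s' ↔ G'.Y (φ s) = some (φ s'))
    (pair : ∀ s s', G.Pair s s' ↔ G'.Pair (φ s) (φ s')) : Sim G G' where
  φ := φ
  port := by
    rintro ⟨s, a⟩ ⟨s', a'⟩
    cases a <;> cases a' <;> simp only [hp_false, hp_true]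
    · exact p1 s s'
    · exact p2 s s'
    · rw [eq_comm, p2 s' s, eq_comm]
    · constructor
      · intro h
        rw [(p1 s s').1 (by rw [← mt_mt σ (G.ε s), h, mt_mt])]
      · intro h
        rw [(p1 s s').2 (by rw [← mt_mt σ' (G'.ε (φ s)), h, mt_mt])]
  block := by
    rintro ⟨s, a⟩ ⟨s', a'⟩
    cases a <;> cases a' <;> simp only [hp_false, hp_true]
    · exact b1 s s'
    · exact b2 s s'
    · rw [eq_comm, b2 s' s, eq_comm]
    · exact b3 s s'
  y := y
  pair := pair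

namespace Sim

variable {G : Glue σ} {G' : Glue σ'} (h : Sim G G')

/-- the reverse similarity -/
def symm : Sim G' G where
  φ := h.φ.symm
  port := by
    intro k l
    rw [h.port (h.φ.symm k.1, k.2) (h.φ.symm l.1, l.2)]
    simp
  block := by
    intro k l
    rw [h.block (h.φ.symm k.1, k.2) (h.φ.symm l.1, l.2)]
    simp
  y := by
    intro s s'
    rw [h.y]
    simp
  pair := by
    intro s s'
    rw [h.pair]
    simp

@[simp] theorem symm_φ : h.symm.φ = h.φ.symm := rfl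

/-- a port is used -/
def Used (G : Glue σ) (q : Port p n) : Prop := ∃ k, hp G k = q

/-- a block is used -/
def UsedB (G : Glue σ) (b : Blk p n) : Prop := ∃ k, blk (hp G k).1 = b

open Classical in
/-- the map of used ports -/
noncomputable def pm (q : Port p n) : Port p n :=
  if hq : ∃ k, hp G k = q then hp G' (h.φ hq.choose.1, hq.choose.2) else q

open Classical in
/-- the map of used blocks -/
noncomputable def bm (b : Blk p n) : Blk p n :=
  if hq : ∃ k, blk (hp G k).1 = b then blk (hp G' (h.φ hq.choose.1, hq.choose.2)).1 else b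

theorem pm_hp (s : G.S) (a : Bool) : h.pm (hp G (s, a)) = hp G' (h.φ s, a) := by
  unfold pm
  have hq : ∃ k, hp G k = hp G (s, a) := ⟨_, rfl⟩
  rw [dif_pos hq]
  exact (h.port hq.choose (s, a)).1 hq.choose_spec

theorem bm_hp (s : G.S) (a : Bool) : h.bm (blk (hp G (s, a)).1) = blk (hp G' (h.φ s, a)).1 := by
  unfold bm
  have hq : ∃ k, blk (hp G k).1 = blk (hp G (s, a)).1 := ⟨_, rfl⟩
  rw [dif_pos hq]
  exact (h.block hq.choose (s, a)).1 hq.choose_spec

theorem pm_ε (s : G.S) : h.pm (G.ε s) = G'.ε (h.φ s) := h.pm_hp s false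

theorem pm_mtε (s : G.S) : h.pm (mt σ (G.ε s)) = mt σ' (G'.ε (h.φ s)) := h.pm_hp s true

theorem bm_ε (s : G.S) : h.bm (blk (G.ε s).1) = blk (G'.ε (h.φ s)).1 := h.bm_hp s false

theorem bm_mtε (s : G.S) : h.bm (blk (mt σ (G.ε s)).1) = blk (mt σ' (G'.ε (h.φ s))).1 :=
  h.bm_hp s true

theorem pm_mt {q : Port p n} (hq : Used G q) : h.pm (mt σ q) = mt σ' (h.pm q) := by
  obtain ⟨⟨s, a⟩, rfl⟩ := hq
  rw [mt_hp, h.pm_hp, h.pm_hp, mt_hp]

theorem used_mt {q : Port p n} (hq : Used G q) : Used G (mt σ q) := by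
  obtain ⟨⟨s, a⟩, rfl⟩ := hq
  exact ⟨(s, !a), by rw [mt_hp]⟩

theorem blk_pm {q : Port p n} (hq : Used G q) : blk (h.pm q).1 = h.bm (blk q.1) := by
  obtain ⟨⟨s, a⟩, rfl⟩ := hq
  rw [h.pm_hp, h.bm_hp]

theorem used_pm {q : Port p n} (hq : Used G q) : Used G' (h.pm q) := by
  obtain ⟨⟨s, a⟩, rfl⟩ := hq
  exact ⟨(h.φ s, a), by rw [h.pm_hp]⟩

theorem usedB_bm {b : Blk p n} (hb : UsedB G b) : UsedB G' (h.bm b) := by
  obtain ⟨⟨s, a⟩, rfl⟩ := hb
  exact ⟨(h.φ s, a), by rw [h.bm_hp]⟩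

theorem pm_pm {q : Port p n} (hq : Used G q) : h.symm.pm (h.pm q) = q := by
  obtain ⟨⟨s, a⟩, rfl⟩ := hq
  rw [h.pm_hp, h.symm.pm_hp]
  simp

theorem bm_bm {b : Blk p n} (hb : UsedB G b) : h.symm.bm (h.bm b) = b := by
  obtain ⟨⟨s, a⟩, rfl⟩ := hb
  rw [h.bm_hp, h.symm.bm_hp]
  simp

theorem pm_pm' {q : Port p n} (hq : Used G' q) : h.pm (h.symm.pm q) = q := by
  obtain ⟨⟨s, a⟩, rfl⟩ := hq
  rw [h.symm.pm_hp, h.pm_hp]
  simp

theorem bm_bm' {b : Blk p n} (hb : UsedB G' b) : h.bm (h.symm.bm b) = b := by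
  obtain ⟨⟨s, a⟩, rfl⟩ := hb
  rw [h.symm.bm_hp, h.bm_hp]
  simp

theorem pm_inj {q q' : Port p n} (hq : Used G q) (hq' : Used G q') (he : h.pm q = h.pm q') :
    q = q' := by
  rw [← h.pm_pm hq, he, h.pm_pm hq']

theorem bm_inj {b b' : Blk p n} (hb : UsedB G b) (hb' : UsedB G b') (he : h.bm b = h.bm b') :
    b = b' := by
  rw [← h.bm_bm hb, he, h.bm_bm hb']

theorem y_none (s : G.S) : G.Y s = none ↔ G'.Y (h.φ s) = none := by
  constructor
  · intro h0
    by_contra h1
    obtain ⟨v, hv⟩ := Option.ne_none_iff_exists'.1 h1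
    have := (h.y s (h.φ.symm v)).2 (by rw [hv]; simp)
    rw [h0] at this
    exact absurd this (by simp)
  · intro h0
    by_contra h1
    obtain ⟨v, hv⟩ := Option.ne_none_iff_exists'.1 h1
    have := (h.y s v).1 hv
    rw [h0] at this
    exact absurd this (by simp)

theorem ysymm (s s' : G.S) : G.Y.symm s = some s' ↔ G'.Y.symm (h.φ s) = some (h.φ s') := by
  rw [PEquiv.eq_some_iff, PEquiv.eq_some_iff]
  exact h.y s' s

theorem ysymm_none (s : G.S) : G.Y.symm s = none ↔ G'.Y.symm (h.φ s) = none := by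
  constructor
  · intro h0
    by_contra h1
    obtain ⟨v, hv⟩ := Option.ne_none_iff_exists'.1 h1
    have := (h.ysymm s (h.φ.symm v)).2 (by rw [hv]; simp)
    rw [h0] at this
    exact absurd this (by simp)
  · intro h0
    by_contra h1
    obtain ⟨v, hv⟩ := Option.ne_none_iff_exists'.1 h1
    have := (h.ysymm s v).1 hv
    rw [h0] at this
    exact absurd this (by simp)

end Sim

/-! ## Combinatorial records -/

/-- a combinatorial record on `Fin F`: same port, same block (of half-sides), `Y`, paired -/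
structure Cmb (F : ℕ) where
  sp : Fin F × Bool → Fin F × Bool → Prop
  sb : Fin F × Bool → Fin F × Bool → Prop
  yr : Fin F → Fin F → Prop
  pr : Fin F → Fin F → Prop

/-- the record of a gluing, for a numbering of the squares -/
def cmb {F : ℕ} (G : Glue σ) (e : G.S ≃ Fin F) : Cmb F where
  sp h k := hp G (e.symm h.1, h.2) = hp G (e.symm k.1, k.2)
  sb h k := blk (hp G (e.symm h.1, h.2)).1 = blk (hp G (e.symm k.1, k.2)).1
  yr s s' := G.Y (e.symm s) = some (e.symm s')
  pr s s' := G.Pair (e.symm s) (e.symm s')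

/-- `c` is the record of `G` for the numbering `e` -/
def IsCmb {F : ℕ} (G : Glue σ) (e : G.S ≃ Fin F) (c : Cmb F) : Prop := cmb G e = c

/-- gluings with the same record are similar -/
def Sim.of_cmb {F : ℕ} {G : Glue σ} {G' : Glue σ'} {e : G.S ≃ Fin F} {e' : G'.S ≃ Fin F}
    (h : cmb G e = cmb G' e') : Sim G G' where
  φ := e.trans e'.symm
  port := by
    intro k l
    have h1 := congrFun (congrFun (congrArg Cmb.sp h) (e k.1, k.2)) (e l.1, l.2)
    simp only [cmb, Equiv.symm_apply_apply] at h1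
    rw [h1]
    rfl
  block := by
    intro k l
    have h1 := congrFun (congrFun (congrArg Cmb.sb h) (e k.1, k.2)) (e l.1, l.2)
    simp only [cmb, Equiv.symm_apply_apply] at h1
    rw [h1]
    rfl
  y := by
    intro k l
    have h1 := congrFun (congrFun (congrArg Cmb.yr h) (e k)) (e l)
    simp only [cmb, Equiv.symm_apply_apply] at h1
    rw [h1]
    rfl
  pair := by
    intro k l
    have h1 := congrFun (congrFun (congrArg Cmb.pr h) (e k)) (e l)
    simp only [cmb, Equiv.symm_apply_apply] at h1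
    rw [h1]
    rfl

end Vale.Agent.P201.Z
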