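import Vale.Agent.P201.Z.LA.PatDefs
import Vale.Agent.P201.Z.LA.Sim

/-!
P201, part LA: the interfaces of the blocks of LA3-LA5 (helper26).  Props only; the assembly
`stmtLA_of` is in `Main.lean`.
-/

namespace Vale.Agent.P201.Z

open Finset

variable {p : Pat} {n : ℕ} {σ : Equiv.Perm (Cel p n)}

open Classical in
/-- density of the label of a regular block (1 at other blocks) -/
noncomputable def Glue.dens (G : Glue σ) (b : Blk p n) : ℝ :=
  if h : G.Reg b then rho p n (lam (G.u0 b h)) else 1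

open Classical in
/-- inequality (U) for the pattern of level `t`, in terms of `G` only -/
def Glue.LevU (G : Glue σ) (C1 K0 : ℝ) (t : ℕ) : Prop :=
  (((univ.filter fun c : Cel p n => t ≤ G.mulP (c, true)).card : ℝ) -
      (univ.filter fun b : Blk p n => t ≤ G.mulB b).card) * Real.log (Fintype.card (Cel p n)) ≤
    ∑ b ∈ univ.filter (fun b : Blk p n => G.Reg b ∧ t ≤ G.mulB b), Real.log (G.dens (G.rep b)) -
      ∑ k ∈ (univ.filter fun b : Blk p n => G.Reg b ∧ t ≤ G.mulB b).image G.rep,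
        (Real.log 2 + 2 * Real.log (G.dens k)) +
      C1 * ((univ.filter fun b : Blk p n => ¬ G.Reg b ∧ t ≤ G.mulB b).card +
        (univ.filter fun q : Port p n => ¬ G.Reg (blk q.1) ∧ t ≤ G.mulP q).card + 1) + K0

open Classical in
/-- the three bounds of block (B2) -/
structure Glue.Bnd (G : Glue σ) (B : ℕ) : Prop where
  irr : (univ.filter fun b : Blk p n => ¬ G.Reg b ∧ 0 < G.mulB b).card ≤ B
  mul : ∀ b, G.mulB b ≤ B
  unp : (univ.filter fun s : G.S => (G.Y s).isSome ∧ ¬ G.Paired s).card ≤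
    (Fintype.card G.S - domc G.X) + B

/-- (A2) the level pattern is a function of the record -/
def StmtRcd : Prop :=
  ∀ (p : Pat) (n F : ℕ) (c : Cmb F) (t : ℕ), 1 ≤ t → ∃ P : Ptn, Fintype.card P.E ≤ F ∧
    ∀ (σ : Equiv.Perm (Cel p n)) (G : Glue σ) (e : G.S ≃ Fin F), G.Red → IsCmb G e c →
      ∀ C1 K0 : ℝ, (∀ r : Rlz P σ, UIneq r C1 K0) → G.LevU C1 K0 t

/-- (B3) few records -/
def StmtCode : Prop :=
  ∀ A : ℕ, ∃ B : ℕ, ∀ (p : Pat) (n F g : ℕ), 3 ≤ g → F ≤ A * g → ∃ CC : Set (Cmb F),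
    CC.Finite ∧ CC.ncard ≤ (F + 2) ^ B ∧
    ∀ (σ : Equiv.Perm (Cel p n)), Girth σ g → ∀ G : Glue σ, G.Red → G.Lab → G.Eul →
      Fintype.card G.S = F → F ≤ domc G.Y + A → ∃ e : G.S ≃ Fin F, ∃ c ∈ CC, IsCmb G e c

/-- (B2) the bounds -/
def StmtCnt : Prop :=
  ∀ A : ℕ, ∃ B : ℕ, ∀ (p : Pat) (n g : ℕ), 3 ≤ g → ∀ (σ : Equiv.Perm (Cel p n)), Girth σ g →
    ∀ G : Glue σ, G.Red → G.Lab → G.Eul → Fintype.card G.S ≤ A * g →
      Fintype.card G.S ≤ domc G.Y + A → G.Bnd B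

/-- (C) the sum over the levels -/
def StmtLev : Prop :=
  ∀ (p : Pat) (n : ℕ) (σ : Equiv.Perm (Cel p n)) (G : Glue σ), G.Red → RhoFacts p n →
    0 < Fintype.card (Cel p n) → ∀ (B : ℕ) (C1 K0 : ℝ), 0 ≤ C1 → 0 ≤ K0 → G.Bnd B →
      (∀ t, 1 ≤ t → t ≤ B → G.LevU C1 K0 t) →
      Real.log 2 / 2 * Fintype.card G.S ≤
        Real.log p.Ttot * ((Fintype.card G.S : ℝ) - domc G.X) +
          ((Fintype.card G.S : ℝ) - domc G.Y) * Real.log (Fintype.card (Cel p n)) +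
          (4 * B ^ 2 + 4 * B) * (1 + C1 + K0 + Real.log p.Ttot)

/-- (N) the numerics -/
def StmtNum : Prop :=
  ∀ L0 : ℝ, 0 ≤ L0 → ∃ e1 : ℝ, 0 < e1 ∧ ∀ (c D : ℝ) (K : ℕ), 0 < c → 0 ≤ D → ∃ Y0 : ℕ,
    ∀ (Y g F op dx : ℕ), Y0 ≤ Y → c * Y ≤ g → F ≤ K * Y → (op = 0 → F = 0 ∨ g ≤ F) →
      Real.log 2 / 2 * F ≤ L0 * dx + op * Y + D * (Real.log (K * Y + 2) + 1) →
      e1 * F ≤ dx + Y * op

end Vale.Agent.P201.Z
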