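import Vale.Agent.P201.Z.LA.Numb
import Vale.Agent.P201.Z.LA.Fan
import Vale.Agent.P201.Z.LA.CodeGeo
import Vale.Agent.P201.Z.LA.Runs
import Vale.Agent.P201.Z.LA.Skel

/-!
P201, part LA (B3): the record of a gluing is given by few runs (helper621).
-/

namespace Vale.Agent.P201.Z.Code

open Finset Vale.Agent.P201.Z.Runs Vale.Agent.P201.Z.CodeGeo

variable {p : Pat} {n : ℕ} {σ : Equiv.Perm (Cel p n)}

/-- the seven relations -/
def rl (G : Glue σ) : Fin 7 → G.S → G.S → Prop
  | 0, s, s' => G.ε s = G.ε s'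
  | 1, s, s' => G.ε s = mt σ (G.ε s')
  | 2, s, s' => blk (G.ε s).1 = blk (G.ε s').1
  | 3, s, s' => blk (G.ε s).1 = blk (mt σ (G.ε s')).1
  | 4, s, s' => blk (mt σ (G.ε s)).1 = blk (mt σ (G.ε s')).1
  | 5, s, s' => G.Y s = some s'
  | 6, s, s' => G.Pair s s'

/-- the relations in a numbering -/
def rels (G : Glue σ) {F : ℕ} (e : G.S ≃ Fin F) (k : Fin 7) (i j : ℕ) : Prop :=
  ∃ s s', (e s : ℕ) = i ∧ (e s' : ℕ) = j ∧ rl G k s s'

theorem rels_lt (G : Glue σ) {F : ℕ} (e : G.S ≃ Fin F) (k : Fin 7) (i j : ℕ)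
    (h : rels G e k i j) : i < F ∧ j < F := by
  obtain ⟨s, s', rfl, rfl, -⟩ := h
  exact ⟨(e s).2, (e s').2⟩

/-- face at a position -/
noncomputable def at' {G : Glue σ} {F : ℕ} (e : G.S ≃ Fin F) (s0 : G.S) (x : ℕ) : G.S :=
  if h : x < F then e.symm ⟨x, h⟩ else s0

theorem at_e {G : Glue σ} {F : ℕ} (e : G.S ≃ Fin F) (s0 s : G.S) : at' e s0 (e s : ℕ) = s := by
  unfold at'
  rw [dif_pos (e s).2]
  simp

theorem e_at {G : Glue σ} {F : ℕ} (e : G.S ≃ Fin F) (s0 : G.S) {x : ℕ} (hx : x < F) :
    (e (at' e s0 x) : ℕ) = x := by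
  unfold at'
  rw [dif_pos hx]
  simp

theorem rels_iff {G : Glue σ} {F : ℕ} (e : G.S ≃ Fin F) (s0 : G.S) (k : Fin 7) {i j : ℕ}
    (hi : i < F) (hj : j < F) : rels G e k i j ↔ rl G k (at' e s0 i) (at' e s0 j) := by
  constructor
  · rintro ⟨s, s', rfl, rfl, h⟩
    rw [at_e, at_e]
    exact h
  · intro h
    exact ⟨_, _, e_at e s0 hi, e_at e s0 hj, h⟩

/-- the two-window property of the relations `0, ..., 4` -/
theorem two_win {G : Glue σ} (hR : G.Red) {g : ℕ} (hg : Girth σ g) (k : Fin 7) (hk : k.val < 5)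
    {a b : ℕ → G.S} {m m' : ℕ}
    (ha : ∀ x < m, G.Y (a x) = some (a (x + 1))) (hb : ∀ x < m', G.Y (b x) = some (b (x + 1)))
    (hlt : m + m' < g) :
    (rl G k (a 0) (b 0) → rl G k (a m) (b m') → m = m' ∧ ∀ x ≤ m, rl G k (a x) (b x)) ∧
    (rl G k (a 0) (b m') → rl G k (a m) (b 0) → m = m' ∧ ∀ x ≤ m, rl G k (a x) (b (m' - x))) := by
  fin_cases k
  · -- equality of the start ports
    refine ⟨fun h0 h1 => ?_, fun h0 h1 => ?_⟩
    · change G.ε (a 0) = G.ε (b 0) at h0
      change G.ε (a m) = G.ε (b m') at h1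
      obtain ⟨hm, h⟩ := ssp hR hg ha hb hlt (by rw [h0]) (by rw [h1])
      refine ⟨hm, fun x hx => ?_⟩
      rcases Nat.lt_or_ge x m with hxm | hxm
      · exact h x hxm
      · obtain rfl : x = m := by omega
        rw [← hm] at h1
        exact h1
    · change G.ε (a 0) = G.ε (b m') at h0
      change G.ε (a m) = G.ε (b 0) at h1
      obtain ⟨hm, h⟩ := ssm hR hg ha hb hlt (by rw [h0]) (by rw [h1])
      have hm0 : m = 0 := by
        by_contra hne
        have h2 := h 0 (by omega)
        rw [h0] at h2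
        have h3 := hR.y _ _ (hb (m' - 1) (by omega))
        have e1 : m' - 1 + 1 = m' := by omega
        have e2 : m' - 1 - 0 = m' - 1 := by omega
        rw [e1] at h3
        rw [e2] at h2
        exact h3.2 h2
      subst hm0
      subst hm
      refine ⟨rfl, fun x hx => ?_⟩
      obtain rfl : x = 0 := by omega
      exact h0
  · -- start port = end port
    refine ⟨fun h0 h1 => ?_, fun h0 h1 => ?_⟩
    · change G.ε (a 0) = mt σ (G.ε (b 0)) at h0
      change G.ε (a m) = mt σ (G.ε (b m')) at h1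
      obtain ⟨hm, h⟩ := sep hR hg ha hb hlt (by rw [h0]) (by rw [h1])
      have hm0 : m = 0 := by
        by_contra hne
        have h2 := h 0 (by omega)
        rw [h0] at h2
        have h3 := hR.y _ _ (hb 0 (by omega))
        exact h3.2 h2.symm
      subst hm0
      subst hm
      refine ⟨rfl, fun x hx => ?_⟩
      obtain rfl : x = 0 := by omega
      exact h0
    · change G.ε (a 0) = mt σ (G.ε (b m')) at h0
      change G.ε (a m) = mt σ (G.ε (b 0)) at h1
      obtain ⟨hm, h⟩ := sem hR hg ha hb hlt (by rw [h0]) (by rw [h1])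
      refine ⟨hm, fun x hx => ?_⟩
      rcases Nat.lt_or_ge x m with hxm | hxm
      · have h2 := h x hxm
        have e1 : m' - 1 - x + 1 = m' - x := by omega
        rw [e1] at h2
        exact h2
      · obtain rfl : x = m := by omega
        have e1 : m' - x = 0 := by omega
        rw [e1]
        exact h1
  · -- start block = start block
    refine ⟨fun h0 h1 => ?_, fun h0 h1 => ?_⟩
    · change blk (G.ε (a 0)).1 = blk (G.ε (b 0)).1 at h0
      change blk (G.ε (a m)).1 = blk (G.ε (b m')).1 at h1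
      obtain ⟨hm, h⟩ := ssp hR hg ha hb hlt h0 h1
      refine ⟨hm, fun x hx => ?_⟩
      rcases Nat.lt_or_ge x m with hxm | hxm
      · change blk (G.ε (a x)).1 = blk (G.ε (b x)).1
        rw [h x hxm]
      · obtain rfl : x = m := by omega
        rw [← hm] at h1
        exact h1
    · change blk (G.ε (a 0)).1 = blk (G.ε (b m')).1 at h0
      change blk (G.ε (a m)).1 = blk (G.ε (b 0)).1 at h1
      obtain ⟨hm, h⟩ := ssm hR hg ha hb hlt h0 h1
      refine ⟨hm, fun x hx => ?_⟩
      rcases Nat.lt_or_ge x m with hxm | hxm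
      · change blk (G.ε (a x)).1 = blk (G.ε (b (m' - x))).1
        have h3 := (hR.y _ _ (hb (m' - 1 - x) (by omega))).1
        have e1 : m' - 1 - x + 1 = m' - x := by omega
        rw [e1] at h3
        rw [h x hxm, h3]
      · obtain rfl : x = m := by omega
        have e1 : m' - x = 0 := by omega
        rw [e1]
        exact h1
  · -- start block = end block
    refine ⟨fun h0 h1 => ?_, fun h0 h1 => ?_⟩
    · change blk (G.ε (a 0)).1 = blk (mt σ (G.ε (b 0))).1 at h0
      change blk (G.ε (a m)).1 = blk (mt σ (G.ε (b m'))).1 at h1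
      obtain ⟨hm, h⟩ := sep hR hg ha hb hlt h0 h1
      refine ⟨hm, fun x hx => ?_⟩
      rcases Nat.lt_or_ge x m with hxm | hxm
      · change blk (G.ε (a x)).1 = blk (mt σ (G.ε (b x))).1
        rw [h x hxm, (hR.y _ _ (hb x (by omega))).1]
      · obtain rfl : x = m := by omega
        rw [← hm] at h1
        exact h1
    · change blk (G.ε (a 0)).1 = blk (mt σ (G.ε (b m'))).1 at h0
      change blk (G.ε (a m)).1 = blk (mt σ (G.ε (b 0))).1 at h1
      obtain ⟨hm, h⟩ := sem hR hg ha hb hlt h0 h1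
      refine ⟨hm, fun x hx => ?_⟩
      rcases Nat.lt_or_ge x m with hxm | hxm
      · change blk (G.ε (a x)).1 = blk (mt σ (G.ε (b (m' - x)))).1
        have e1 : m' - 1 - x + 1 = m' - x := by omega
        have h2 := h x hxm
        rw [e1] at h2
        rw [h2]
      · obtain rfl : x = m := by omega
        have e1 : m' - x = 0 := by omega
        rw [e1]
        exact h1
  · -- end block = end block
    refine ⟨fun h0 h1 => ?_, fun h0 h1 => ?_⟩
    · change blk (mt σ (G.ε (a 0))).1 = blk (mt σ (G.ε (b 0))).1 at h0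
      change blk (mt σ (G.ε (a m))).1 = blk (mt σ (G.ε (b m'))).1 at h1
      obtain ⟨hm, h⟩ := eep hR hg ha hb hlt h0 h1
      refine ⟨hm, fun x hx => ?_⟩
      rcases Nat.lt_or_ge x m with hxm | hxm
      · change blk (mt σ (G.ε (a x))).1 = blk (mt σ (G.ε (b x))).1
        rw [(hR.y _ _ (ha x (by omega))).1, h x hxm, (hR.y _ _ (hb x (by omega))).1]
      · obtain rfl : x = m := by omega
        rw [← hm] at h1
        exact h1
    · change blk (mt σ (G.ε (a 0))).1 = blk (mt σ (G.ε (b m'))).1 at h0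
      change blk (mt σ (G.ε (a m))).1 = blk (mt σ (G.ε (b 0))).1 at h1
      obtain ⟨hm, h⟩ := eem hR hg ha hb hlt h0 h1
      refine ⟨hm, fun x hx => ?_⟩
      rcases Nat.lt_or_ge x m with hxm | hxm
      · change blk (mt σ (G.ε (a x))).1 = blk (mt σ (G.ε (b (m' - x)))).1
        have e1 : m' - 1 - x + 1 = m' - x := by omega
        have h2 := h x hxm
        rw [e1] at h2
        rw [(hR.y _ _ (ha x (by omega))).1, h2]
      · obtain rfl : x = m := by omega
        have e1 : m' - x = 0 := by omega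
        rw [e1]
        exact h1
  · simp at hk
  · simp at hk

open Classical in
/-- cuts: exceptional positions and multiples of `L` -/
def cut {G : Glue σ} {F : ℕ} (e : G.S ≃ Fin F) (B0 : Finset G.S) (L : ℕ) (y : ℕ) : Prop :=
  (∃ s ∈ B0, (e s : ℕ) = y) ∨ L ∣ y + 1

open Classical in
theorem card_cut {G : Glue σ} {F : ℕ} (e : G.S ≃ Fin F) (B0 : Finset G.S) (L : ℕ) :
    ((range F).filter (cut e B0 L)).card ≤ B0.card + F / L := by
  have h1 : (range F).filter (cut e B0 L) ⊆
      B0.image (fun s => (e s : ℕ)) ∪ (range F).filter (fun y => L ∣ y + 1) := by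
    intro y hy
    rw [mem_filter] at hy
    rw [mem_union, mem_image, mem_filter]
    rcases hy.2 with ⟨s, hs, h⟩ | h
    · exact Or.inl ⟨s, hs, h⟩
    · exact Or.inr ⟨hy.1, h⟩
  refine (card_le_card h1).trans ((card_union_le _ _).trans ?_)
  rw [Nat.card_multiples]
  exact Nat.add_le_add_right card_image_le _

theorem no_cut_lt {G : Glue σ} {F : ℕ} {e : G.S ≃ Fin F} {B0 : Finset G.S} {L : ℕ} (hL : 0 < L)
    {i m : ℕ} (h : ∀ y, i ≤ y → y < i + m → ¬ cut e B0 L y) : m < L := by
  by_contra hm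
  push Not at hm
  have h1 := Nat.div_add_mod i L
  have h2 := Nat.mod_lt i hL
  refine h (L * (i / L) + (L - 1)) (by omega) (by omega) (Or.inr ⟨i / L + 1, ?_⟩)
  rw [Nat.mul_add]
  omega

theorem runs04 {G : Glue σ} (hR : G.Red) {g : ℕ} (hg : Girth σ g) {F : ℕ} (e : G.S ≃ Fin F)
    (B0 : Finset G.S) (hB0 : ∀ s, s ∉ B0 → ∃ t, G.Y s = some t ∧ (e t : ℕ) = (e s : ℕ) + 1)
    {L : ℕ} (hL : 0 < L) (hLg : 2 * L ≤ g) (k : Fin 7) (hk : k.val < 5) :
    IsRuns F ((B0.card + F / L + 1) * (B0.card + F / L + 1)) (rels G e k) := by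
  classical
  refine windows_runs (cut e B0 L) F _ (card_cut e B0 L) _ (rels_lt G e k) ?_
  intro i j m m' h1 h2 hi hj
  have hm := no_cut_lt hL h1
  have hm' := no_cut_lt hL h2
  let s0 : G.S := e.symm ⟨i + m, hi⟩
  have key : ∀ (i m : ℕ), (∀ y, i ≤ y → y < i + m → ¬ cut e B0 L y) → i + m < F →
      ∀ x < m, G.Y (at' e s0 (i + x)) = some (at' e s0 (i + (x + 1))) := by
    intro i m h hi x hx
    have h3 : at' e s0 (i + x) ∉ B0 := fun hmem =>
      h (i + x) (by omega) (by omega) (Or.inl ⟨_, hmem, e_at e s0 (by omega)⟩)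
    obtain ⟨t, ht, het⟩ := hB0 _ h3
    rw [ht, Option.some.injEq, ← at_e e s0 t, het, e_at e s0 (by omega)]
    congr 1
  have h5 := two_win hR hg k hk (a := fun x => at' e s0 (i + x)) (b := fun x => at' e s0 (j + x))
    (key i m h1 hi) (key j m' h2 hj) (by omega)
  simp only [Nat.add_zero] at h5
  constructor
  · intro k1 k2
    rw [rels_iff e s0 k (by omega) (by omega)] at k1 k2
    obtain ⟨e1, e2⟩ := h5.1 k1 k2
    refine ⟨e1, fun x hx => ?_⟩
    rw [rels_iff e s0 k (by omega) (by omega)]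
    exact e2 x hx
  · intro k1 k2
    rw [rels_iff e s0 k (by omega) (by omega)] at k1 k2
    obtain ⟨e1, e2⟩ := h5.2 k1 k2
    refine ⟨e1, fun x hx => ?_⟩
    rw [rels_iff e s0 k (by omega) (by omega)]
    have e3 : j + m' - x = j + (m' - x) := by omega
    rw [e3]
    exact e2 x hx

theorem runs5 {G : Glue σ} {F : ℕ} (e : G.S ≃ Fin F)
    (B0 : Finset G.S) (hB0 : ∀ s, s ∉ B0 → ∃ t, G.Y s = some t ∧ (e t : ℕ) = (e s : ℕ) + 1) :
    IsRuns F (B0.card + B0.card) (rels G e 5) := by
  classical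
  refine runs_of_ends_diag F _ _ (rels_lt G e 5) ?_
  have hsub : ((range F ×ˢ range F).filter
      (fun q => rels G e 5 q.1 q.2 ∧ ¬ rels G e 5 (q.1 + 1) (q.2 + 1))) ⊆
      (B0.image fun s => ((e s : ℕ), ((G.Y s).elim 0 fun t => (e t : ℕ)))) ∪
      (B0.image fun s => (((G.Y.symm s).elim 0 fun t => (e t : ℕ)), (e s : ℕ))) := by
    rintro ⟨i, j⟩ hq
    rw [mem_filter] at hq
    obtain ⟨-, ⟨s, s', hs, hs', hY⟩, hn⟩ := hq
    dsimp only at hs hs' hn
    subst hs hs'
    change G.Y s = some s' at hY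
    rw [mem_union, mem_image, mem_image]
    by_cases h1 : s ∈ B0
    · left
      exact ⟨s, h1, by rw [hY]; rfl⟩
    · by_cases h2 : s' ∈ B0
      · right
        refine ⟨s', h2, ?_⟩
        rw [(PEquiv.eq_some_iff G.Y).2 hY]
        rfl
      · exfalso
        obtain ⟨t, ht, het⟩ := hB0 s h1
        rw [hY, Option.some.injEq] at ht
        subst ht
        obtain ⟨t', ht', het'⟩ := hB0 s' h2
        exact hn ⟨s', t', het, het', ht'⟩
  exact (card_le_card hsub).trans ((card_union_le _ _).trans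
    (Nat.add_le_add card_image_le card_image_le))

open Classical in
theorem runs6 {G : Glue σ} {F : ℕ} (e : G.S ≃ Fin F)
    (B0 : Finset G.S) (hB0 : ∀ s, s ∉ B0 → ∃ t, G.Y s = some t ∧ (e t : ℕ) = (e s : ℕ) + 1) :
    IsRuns F ((univ.filter fun s => G.Paired s ∧
      ∀ v, G.Y s = some v → ¬ (G.GoodX v ∧ G.Paired v)).card + B0.card + B0.card)
      (rels G e 6) := by
  refine runs_of_ends_anti F _ _ (rels_lt G e 6) ?_
  -- partner
  let pt : G.S → ℕ := fun s => if h : ∃ s', G.Pair s s' then (e h.choose : ℕ) else 0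
  have hpt : ∀ s s', G.Pair s s' → pt s = e s' := by
    intro s s' h
    have h1 : ∃ s', G.Pair s s' := ⟨s', h⟩
    change (if h : ∃ s', G.Pair s s' then (e h.choose : ℕ) else 0) = e s'
    rw [dif_pos h1, h1.choose_spec.unique h]
  have hsub : ((range F ×ˢ range F).filter
      (fun q => rels G e 6 q.1 q.2 ∧ ¬ (1 ≤ q.2 ∧ rels G e 6 (q.1 + 1) (q.2 - 1)))) ⊆
      ((univ.filter fun s => G.Paired s ∧
      ∀ v, G.Y s = some v → ¬ (G.GoodX v ∧ G.Paired v)).image fun s => ((e s : ℕ), pt s)) ∪
      (B0.image fun s => ((e s : ℕ), pt s)) ∪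
      (B0.image fun v' => ((G.Y v').elim (0, 0) fun s' => (pt s', (e s' : ℕ)))) := by
    rintro ⟨i, j⟩ hq
    rw [mem_filter] at hq
    obtain ⟨-, ⟨s, s', hs, hs', hP⟩, hn⟩ := hq
    dsimp only at hs hs' hn
    subst hs hs'
    change G.Pair s s' at hP
    rw [mem_union, mem_union, mem_image, mem_image, mem_image]
    by_cases h1 : s ∈ B0
    · left; right
      exact ⟨s, h1, by rw [hpt s s' hP]⟩
    · obtain ⟨v, hv, hev⟩ := hB0 s h1
      by_cases h2 : G.GoodX v ∧ G.Paired v
      · obtain ⟨hX, v', hvv'⟩ := h2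
        have h3 : G.Y v' = some s' := hP.slope hv hX hvv'
        by_cases h4 : v' ∈ B0
        · right
          refine ⟨v', h4, ?_⟩
          rw [h3]
          simp only [Option.elim_some]
          rw [hpt s' s hP.symm]
        · exfalso
          obtain ⟨t, ht, het⟩ := hB0 v' h4
          rw [h3, Option.some.injEq] at ht
          subst ht
          refine hn ⟨by omega, v, v', hev, by omega, hvv'⟩
      · left; left
        refine ⟨s, mem_filter.2 ⟨mem_univ _, ⟨s', hP⟩, ?_⟩, by rw [hpt s s' hP]⟩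
        intro w hw
        rw [hv, Option.some.injEq] at hw
        subst hw
        exact h2
  exact (card_le_card hsub).trans ((card_union_le _ _).trans
    (Nat.add_le_add ((card_union_le _ _).trans (Nat.add_le_add card_image_le card_image_le))
      card_image_le))

/-- the record of seven relations -/
def toCmb (F : ℕ) (R : Fin 7 → ℕ → ℕ → Prop) : Cmb F where
  sp h k := match h.2, k.2 with
    | false, false => R 0 h.1 k.1
    | false, true => R 1 h.1 k.1
    | true, false => R 1 k.1 h.1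
    | true, true => R 0 h.1 k.1
  sb h k := match h.2, k.2 with
    | false, false => R 2 h.1 k.1
    | false, true => R 3 h.1 k.1
    | true, false => R 3 k.1 h.1
    | true, true => R 4 h.1 k.1
  yr h k := R 5 h k
  pr h k := R 6 h k

theorem isCmb_toCmb {G : Glue σ} {F : ℕ} (e : G.S ≃ Fin F) :
    IsCmb G e (toCmb F (rels G e)) := by
  have key : ∀ (k : Fin 7) (i j : Fin F), rels G e k i j ↔ rl G k (e.symm i) (e.symm j) := by
    intro k i j
    constructor
    · rintro ⟨s, s', h1, h2, h⟩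
      have e1 : e s = i := Fin.ext h1
      have e2 : e s' = j := Fin.ext h2
      rw [← e1, ← e2, Equiv.symm_apply_apply, Equiv.symm_apply_apply]
      exact h
    · intro h
      exact ⟨_, _, by simp, by simp, h⟩
  unfold IsCmb cmb toCmb
  simp only [Cmb.mk.injEq]
  refine ⟨?_, ?_, ?_, ?_⟩
  · funext ⟨i, a⟩ ⟨j, b⟩
    cases a <;> cases b <;> simp only [hp_false, hp_true, eq_iff_iff]
    · exact (key 0 i j).symm
    · exact (key 1 i j).symm
    · rw [key 1 j i]
      exact eq_comm
    · rw [key 0 i j]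
      constructor
      · intro h
        change G.ε _ = G.ε _
        rw [← mt_mt σ (G.ε (e.symm i)), h, mt_mt]
      · intro h
        change G.ε _ = G.ε _ at h
        rw [h]
  · funext ⟨i, a⟩ ⟨j, b⟩
    cases a <;> cases b <;> simp only [hp_false, hp_true, eq_iff_iff]
    · exact (key 2 i j).symm
    · exact (key 3 i j).symm
    · rw [key 3 j i]
      exact eq_comm
    · exact (key 4 i j).symm
  · funext i j
    exact propext (key 5 i j).symm
  · funext i j
    exact propext (key 6 i j).symm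

/-- **(B3)** -/
theorem stmtCode : StmtCode := by
  classical
  intro A
  set b := 2 * A with hb
  set W := b + 3 * A with hW
  set B' := (W + 1) * (W + 1) + ((6 * b + 6) + A + b + b) with hB'
  refine ⟨1 + 28 * B', fun p n F g hg3 hFg => ?_⟩
  obtain ⟨𝒞, hcard, h𝒞⟩ := codes F B'
  refine ⟨↑((𝒞.filter fun x => x.1 = F).image fun x => toCmb F x.2), Finset.finite_toSet _, ?_, ?_⟩
  · rw [Set.ncard_coe_finset]
    refine card_image_le.trans ((card_filter_le _ _).trans (hcard.trans ?_))
    have h1 : 2 * (F + 1) ^ 3 ≤ (F + 2) ^ 4 := by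
      calc 2 * (F + 1) ^ 3 ≤ (F + 2) * (F + 2) ^ 3 :=
            Nat.mul_le_mul (by omega) (Nat.pow_le_pow_left (by omega) _)
        _ = (F + 2) ^ 4 := by ring
    calc (F + 1) * ((2 * (F + 1) ^ 3) ^ B') ^ 7
        ≤ (F + 2) * (((F + 2) ^ 4) ^ B') ^ 7 :=
          Nat.mul_le_mul (by omega) (Nat.pow_le_pow_left (Nat.pow_le_pow_left h1 _) _)
      _ = (F + 2) ^ (1 + 28 * B') := by
          rw [← pow_mul, ← pow_mul, pow_add, pow_one]
          congr 2
          ring
  · intro σ hg G hR hL hE hF hY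
    subst hF
    obtain ⟨e, B0, hB0, hsucc⟩ := Numb.exists_numbering G.Y
    have hcyc := Glue.girth_cyc hR hg
    have hcA : cyc G.Y ≤ A := by
      by_contra hcon
      push Not at hcon
      have : g * (A + 1) ≤ g * cyc G.Y := Nat.mul_le_mul_left _ hcon
      have h2 : A * g = g * A := Nat.mul_comm _ _
      rw [Nat.mul_add] at this
      omega
    have hdom : domc G.Y ≤ Fintype.card G.S := by
      unfold domc
      exact card_le_univ _
    have hB0b : B0.card ≤ b := by omega
    have hLpos : 0 < g / 2 := by omega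
    have hFL : Fintype.card G.S / (g / 2) ≤ 3 * A := by
      rw [Nat.div_le_iff_le_mul_add_pred hLpos]
      have h1 : g ≤ 3 * (g / 2) := by omega
      have h2 : A * g ≤ A * (3 * (g / 2)) := Nat.mul_le_mul_left _ h1
      have h3 : A * (3 * (g / 2)) = g / 2 * (3 * A) := by ring
      omega
    have hla := Glue.la1 hR hL hE
    have hbr := G.breaks_le
    refine ⟨e, toCmb _ (rels G e), ?_, isCmb_toCmb e⟩
    rw [Finset.mem_coe, mem_image]
    refine ⟨(Fintype.card G.S, rels G e), mem_filter.2 ⟨h𝒞 _ le_rfl _ ?_, rfl⟩, rfl⟩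
    have r04 : ∀ k : Fin 7, k.val < 5 → IsRuns (Fintype.card G.S) B' (rels G e k) := by
      intro k hk
      refine IsRuns.mono ?_ (runs04 hR hg e B0 hsucc hLpos (by omega) k hk)
      have h1 : B0.card + Fintype.card G.S / (g / 2) + 1 ≤ W + 1 := by omega
      have := Nat.mul_le_mul h1 h1
      omega
    intro k
    by_cases hk : k.val < 5
    · exact r04 k hk
    · by_cases hk5 : k = 5
      · subst hk5
        exact IsRuns.mono (by omega) (runs5 e B0 hsucc)
      · have hk6 : k = 6 := by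
          apply Fin.ext
          have h1 := k.2
          have h2 : k.val ≠ 5 := fun h => hk5 (Fin.ext h)
          show k.val = 6
          omega
        subst hk6
        refine IsRuns.mono ?_ (runs6 e B0 hsucc)
        have hop : Fintype.card G.S - domc G.Y ≤ A := by omega
        omega

end Vale.Agent.P201.Z.Code

namespace Vale.Agent.P201.Z

theorem stmtCode : StmtCode := Code.stmtCode

end Vale.Agent.P201.Z
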