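import Mathlib

/-!
P201, part LA, leaf (N): the final numerics as abstract real lemmas (helper660).
-/

namespace Vale.Agent.P201.Z

/-- `B (1 + log (Y + 2))` is at most `m Y` for large `Y`. -/
theorem num_ev (B m : ℝ) (hm : 0 < m) :
    ∃ y0 : ℝ, 0 < y0 ∧ ∀ Y : ℝ, y0 ≤ Y → B * (1 + Real.log (Y + 2)) ≤ m * Y := by
  have hB : 0 ≤ |B| := abs_nonneg B
  obtain ⟨d, hd⟩ : ∃ d : ℝ, d = m / (2 * (|B| + 1)) := ⟨_, rfl⟩
  have hd0 : 0 < d := by rw [hd]; positivity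
  have hdm : |B| * d ≤ m / 2 := by
    rw [hd, mul_div_assoc', div_le_div_iff₀ (by positivity) (by norm_num)]
    nlinarith
  refine ⟨max 1 (2 * (|B| * (2 * d - Real.log d)) / m), lt_of_lt_of_le one_pos (le_max_left _ _),
    fun Y hY => ?_⟩
  have hY1 : 1 ≤ Y := (le_max_left _ _).trans hY
  have hY2 : 2 * (|B| * (2 * d - Real.log d)) / m ≤ Y := (le_max_right _ _).trans hY
  rw [div_le_iff₀ hm] at hY2
  have hlog0 : 0 ≤ Real.log (Y + 2) := Real.log_nonneg (by linarith)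
  have h1 : Real.log (Y + 2) ≤ d * (Y + 2) - 1 - Real.log d := by
    have h2 := Real.log_le_sub_one_of_pos (x := d * (Y + 2)) (by positivity)
    rw [Real.log_mul hd0.ne' (by linarith)] at h2
    linarith
  have h3 : B * (1 + Real.log (Y + 2)) ≤ |B| * (1 + Real.log (Y + 2)) :=
    mul_le_mul_of_nonneg_right (le_abs_self B) (by linarith)
  have h4 : |B| * (1 + Real.log (Y + 2)) ≤ |B| * (d * Y + (2 * d - Real.log d)) :=
    mul_le_mul_of_nonneg_left (by linarith) hB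
  have h5 : |B| * (d * Y) ≤ m / 2 * Y := by
    rw [← mul_assoc]
    exact mul_le_mul_of_nonneg_right hdm (by linarith)
  rw [mul_add] at h4
  linarith

/-- **(N)** final numerics: `e1` depends on `L0`, `c` only, the threshold `y0` also on `B`. -/
theorem la_num (L0 : ℝ) : ∃ e1 : ℝ, 0 < e1 ∧ e1 ≤ 1 ∧ ∀ c B : ℝ, 0 < c → ∃ y0 : ℝ, 0 < y0 ∧
    ∀ Y F op x g lN E : ℝ, y0 ≤ Y → lN ≤ Y → c * Y ≤ g → 0 ≤ x → 0 ≤ op → 0 ≤ F →
      (F = 0 ∨ 1 ≤ op ∨ g ≤ F) → E ≤ B * (1 + Real.log (Y + 2)) →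
      Real.log 2 / 2 * F ≤ L0 * x + op * lN + E → e1 * F ≤ x + Y * op := by
  have hl2 : 0 < Real.log 2 := Real.log_pos (by norm_num)
  obtain ⟨M, hM⟩ : ∃ M : ℝ, M = max L0 2 := ⟨_, rfl⟩
  have hM2 : 2 ≤ M := by rw [hM]; exact le_max_right _ _
  have hML : L0 ≤ M := by rw [hM]; exact le_max_left _ _
  have hM0 : 0 < M := by linarith
  obtain ⟨e, he⟩ : ∃ e : ℝ, e = min 1 (Real.log 2 / 4 / M) := ⟨_, rfl⟩
  have he0 : 0 < e := by rw [he]; exact lt_min one_pos (by positivity)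
  have he1 : e ≤ 1 := by rw [he]; exact min_le_left _ _
  have he2 : e * M ≤ Real.log 2 / 4 := by
    rw [← le_div_iff₀ hM0, he]
    exact min_le_right _ _
  refine ⟨e, he0, he1, fun c B hc => ?_⟩
  have hm : 0 < min 1 (Real.log 2 / 4 * c) := lt_min one_pos (by positivity)
  obtain ⟨y0, hy0, hy⟩ := num_ev B (min 1 (Real.log 2 / 4 * c)) hm
  refine ⟨y0, hy0, ?_⟩
  intro Y F op x g lN E hY hlN hg hx hop hF hcase hE hmain
  have hY0 : 0 < Y := lt_of_lt_of_le hy0 hY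
  have h1 := hy Y hY
  have h2 : min 1 (Real.log 2 / 4 * c) * Y ≤ Y := by
    calc min 1 (Real.log 2 / 4 * c) * Y ≤ 1 * Y :=
          mul_le_mul_of_nonneg_right (min_le_left _ _) hY0.le
      _ = Y := one_mul Y
  have h3 : min 1 (Real.log 2 / 4 * c) * Y ≤ Real.log 2 / 4 * (c * Y) := by
    rw [← mul_assoc]
    exact mul_le_mul_of_nonneg_right (min_le_right _ _) hY0.le
  have h4 : op * lN ≤ op * Y := mul_le_mul_of_nonneg_left hlN hop
  have hxM : L0 * x ≤ M * x := mul_le_mul_of_nonneg_right hML hx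
  have hYop : 0 ≤ Y * op := mul_nonneg hY0.le hop
  -- it suffices to bound `log 2 / 4 * F`
  have key : Real.log 2 / 4 * F ≤ M * (x + Y * op) → e * F ≤ x + Y * op := by
    intro h
    have h5 : e * M * F ≤ M * (x + Y * op) :=
      (mul_le_mul_of_nonneg_right he2 hF).trans h
    have h6 : M * (e * F) ≤ M * (x + Y * op) := by linarith
    exact le_of_mul_le_mul_left h6 hM0
  rcases hcase with h | h | h
  · rw [h, mul_zero]
    linarith
  · apply key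
    have h5 : Y ≤ Y * op := le_mul_of_one_le_right hY0.le h
    have h6 : 2 * (Y * op) ≤ M * (Y * op) := mul_le_mul_of_nonneg_right hM2 hYop
    have h7 : 0 ≤ Real.log 2 / 4 * F := by positivity
    nlinarith
  · apply key
    have h5 : Real.log 2 / 4 * (c * Y) ≤ Real.log 2 / 4 * F :=
      mul_le_mul_of_nonneg_left (hg.trans h) (by positivity)
    have h6 : 2 * (Y * op) ≤ M * (Y * op) := mul_le_mul_of_nonneg_right hM2 hYop
    nlinarith

/-- in the nontrivial case the number of open fans is at most `K` -/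
theorem la_num_op {e1 F x Y op : ℝ} {K : ℕ} (he : e1 ≤ 1) (hF : 0 ≤ F) (hx : 0 ≤ x) (hY : 0 < Y)
    (hK : F ≤ K * Y) (h : ¬ e1 * F ≤ x + Y * op) : op ≤ K := by
  by_contra hcon
  push Not at hcon
  apply h
  have h1 : e1 * F ≤ F := by
    calc e1 * F ≤ 1 * F := mul_le_mul_of_nonneg_right he hF
      _ = F := one_mul F
  have h2 : (K : ℝ) * Y ≤ op * Y := mul_le_mul_of_nonneg_right hcon.le hY.le
  linarith

/-- the area is at most a constant times the girth -/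
theorem la_num_area {c : ℝ} (hc : 0 < c) (K : ℕ) : ∃ A : ℕ, K ≤ A ∧ ∀ F Y g : ℕ, F ≤ K * Y →
    c * Y ≤ g → F ≤ A * g := by
  refine ⟨max K ⌈(K : ℝ) / c⌉₊, le_max_left _ _, fun F Y g hF hg => ?_⟩
  have h1 : (K : ℝ) / c ≤ ((max K ⌈(K : ℝ) / c⌉₊ : ℕ) : ℝ) :=
    (Nat.le_ceil _).trans (by exact_mod_cast le_max_right _ _)
  have h2 : (F : ℝ) ≤ ((max K ⌈(K : ℝ) / c⌉₊ : ℕ) : ℝ) * g := by
    calc (F : ℝ) ≤ K * Y := by exact_mod_cast hF
      _ = (K : ℝ) / c * (c * Y) := by field_simp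
      _ ≤ (K : ℝ) / c * g := mul_le_mul_of_nonneg_left hg (by positivity)
      _ ≤ _ := mul_le_mul_of_nonneg_right h1 (Nat.cast_nonneg g)
  exact_mod_cast h2

/-- size of the family of patterns: if `#ι ≤ D (K Y + 2)^D` then `log #ι = O(log Y)` -/
theorem la_num_card (K D : ℕ) : ∃ B : ℝ, 0 ≤ B ∧ ∀ Y m : ℕ, 0 < m → m ≤ D * (K * Y + 2) ^ D →
    Real.log m ≤ B * (1 + Real.log (Y + 2)) := by
  have hK : 0 ≤ Real.log (K + 1 : ℝ) := Real.log_nonneg (by
    have : (0 : ℝ) ≤ K := Nat.cast_nonneg K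
    linarith)
  have hD : 0 ≤ Real.log (D + 1 : ℝ) := Real.log_nonneg (by
    have : (0 : ℝ) ≤ D := Nat.cast_nonneg D
    linarith)
  refine ⟨Real.log (D + 1) + D * (Real.log (K + 1) + 1), by positivity, fun Y m hm h => ?_⟩
  have hY0 : (0 : ℝ) ≤ Y := Nat.cast_nonneg Y
  have hK0 : (0 : ℝ) ≤ K := Nat.cast_nonneg K
  have hlY : 0 ≤ Real.log (Y + 2 : ℝ) := Real.log_nonneg (by linarith)
  have h0 : (m : ℝ) ≤ (D + 1) * ((K + 1) * (Y + 2)) ^ D := by
    have h1 : (m : ℝ) ≤ D * (K * Y + 2) ^ D := by exact_mod_cast h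
    have h2 : ((K : ℝ) * Y + 2) ^ D ≤ ((K + 1) * (Y + 2)) ^ D := by
      apply pow_le_pow_left₀ (by positivity)
      nlinarith
    have h3 : (0 : ℝ) ≤ ((K + 1) * (Y + 2)) ^ D := by positivity
    have hD0 : (0 : ℝ) ≤ D := Nat.cast_nonneg D
    nlinarith
  have hm' : (0 : ℝ) < m := by exact_mod_cast hm
  have h1 := Real.log_le_log hm' h0
  rw [Real.log_mul (by positivity) (by positivity), Real.log_pow,
    Real.log_mul (by positivity) (by positivity)] at h1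
  have hD0 : (0 : ℝ) ≤ D := Nat.cast_nonneg D
  nlinarith [mul_nonneg hD0 hK, mul_nonneg hD0 hlY, mul_nonneg hD hlY,
    mul_nonneg (mul_nonneg hD0 hK) hlY]

/-- threshold for `n` -/
theorem la_num_n0 (T : ℕ) (hT : 0 < T) (y0 : ℝ) : ∃ n0 : ℕ, 0 < n0 ∧ ∀ n : ℕ, n0 ≤ n → ∀ Y : ℝ,
    Real.log ((n * T : ℕ) : ℝ) ≤ Y → y0 ≤ Y := by
  refine ⟨⌈Real.exp y0⌉₊ + 1, Nat.succ_pos _, fun n hn Y hY => ?_⟩
  refine le_trans ?_ hY
  rw [Real.le_log_iff_exp_le (by
    have : 0 < n * T := Nat.mul_pos (by omega) hT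
    exact_mod_cast this)]
  have h1 : Real.exp y0 ≤ (⌈Real.exp y0⌉₊ : ℝ) := Nat.le_ceil _
  have h2 : ⌈Real.exp y0⌉₊ ≤ n * T := by
    calc ⌈Real.exp y0⌉₊ ≤ n := by omega
      _ = n * 1 := (mul_one n).symm
      _ ≤ n * T := Nat.mul_le_mul_left n hT
  exact h1.trans (by exact_mod_cast h2)

end Vale.Agent.P201.Z
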