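import Vale.Agent.P201.Z.LA.Skel
import Vale.Agent.P201.Z.LA.Num

/-!
P201, part LA, leaf (N): `StmtNum` (helper660).
-/

namespace Vale.Agent.P201.Z

theorem stmtNum : StmtNum := by
  intro L0 _
  obtain ⟨e1, h1, -, h2⟩ := la_num L0
  refine ⟨e1, h1, fun c D K hc hD => ?_⟩
  have hK0 : (0 : ℝ) ≤ K := Nat.cast_nonneg K
  have hlK : 0 ≤ Real.log (K + 1 : ℝ) := Real.log_nonneg (by linarith)
  obtain ⟨y0, hy0, hy⟩ := h2 c (D * (1 + Real.log (K + 1))) hc
  refine ⟨⌈y0⌉₊, fun Y g F op dx hY hg hF hcase hmain => ?_⟩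
  have hY' : y0 ≤ (Y : ℝ) := (Nat.le_ceil _).trans (by exact_mod_cast hY)
  have hY0 : (0 : ℝ) ≤ Y := Nat.cast_nonneg Y
  have hlY : 0 ≤ Real.log (Y + 2 : ℝ) := Real.log_nonneg (by linarith)
  refine hy Y F op dx g Y (D * (Real.log (K * Y + 2) + 1)) hY' le_rfl hg (Nat.cast_nonneg _)
    (Nat.cast_nonneg _) (Nat.cast_nonneg _) ?_ ?_ hmain
  · rcases Nat.eq_zero_or_pos op with h | h
    · rcases hcase h with h3 | h3
      · left
        rw [h3]
        exact Nat.cast_zero
      · right; right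
        exact_mod_cast h3
    · right; left
      exact_mod_cast h
  · have h3 : Real.log (K * Y + 2) ≤ Real.log (K + 1) + Real.log (Y + 2) := by
      rw [← Real.log_mul (by positivity) (by positivity)]
      apply Real.log_le_log (by positivity)
      nlinarith
    have h4 : Real.log (K * Y + 2) + 1 ≤ (1 + Real.log (K + 1)) * (1 + Real.log (Y + 2)) := by
      nlinarith [mul_nonneg hlK hlY]
    rw [mul_assoc]
    exact mul_le_mul_of_nonneg_left h4 hD

end Vale.Agent.P201.Z
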