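import Vale.Agent.P201.Z.LA.Pat
import Vale.Agent.P201.Z.LA.Sim
import Vale.Agent.P201.Z.LA.Skel

/-!
P201, part LA (helper556): transport of level patterns along similar gluings.
-/

namespace Vale.Agent.P201.Z

open Finset

variable {p : Pat} {n : ℕ} {σ σ' σ'' : Equiv.Perm (Cel p n)}

theorem nlab_rev (l : Lbl p) : nlab p n (rev l) = nlab p n l := by
  classical
  unfold nlab
  refine Finset.card_equiv (Equiv.prodComm _ _) ?_
  rintro ⟨u1, u2⟩
  simp only [mem_filter, mem_univ, true_and, Equiv.prodComm_apply, Prod.swap_prod_mk]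
  constructor
  · rintro ⟨h1, h2⟩
    refine ⟨⟨h1.1.symm, Ne.symm h1.2⟩, ?_⟩
    rw [lam_swap, h2, rev_rev]
  · rintro ⟨h1, h2⟩
    refine ⟨⟨h1.1.symm, Ne.symm h1.2⟩, ?_⟩
    rw [lam_swap, h2]

theorem rho_rev (l : Lbl p) : rho p n (rev l) = rho p n l := by
  unfold rho
  rw [nlab_rev]

namespace Sim

variable {G : Glue σ} {G' : Glue σ'}

theorem used_of_mulP {q : Port p n} (hq : 1 ≤ G.mulP q) : Used G q := by
  unfold Glue.mulP at hq
  obtain ⟨s, hs⟩ := card_pos.1 hq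
  rw [mem_filter] at hs
  rcases hs.2 with h | h
  · exact ⟨(s, false), h⟩
  · exact ⟨(s, true), h⟩

theorem usedB_of_mulB {b : Blk p n} (hb : 1 ≤ G.mulB b) : UsedB G b := by
  unfold Glue.mulB at hb
  rcases Nat.eq_zero_or_pos (univ.filter fun s : G.S => blk (mt σ (G.ε s)).1 = b).card with h0 | h0
  · rw [h0, zero_add] at hb
    obtain ⟨s, hs⟩ := card_pos.1 hb
    rw [mem_filter] at hs
    exact ⟨(s, false), hs.2.2⟩
  · obtain ⟨s, hs⟩ := card_pos.1 h0
    rw [mem_filter] at hs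
    exact ⟨(s, true), hs.2⟩

theorem usedB_of_reg {b : Blk p n} (hb : G.Reg b) : UsedB G b := by
  obtain ⟨s, hs⟩ := hb.vis
  exact ⟨(s, true), hs⟩

theorem used_of_OU {b : Blk p n} {u : Port p n × Port p n} (hu : G.OU b u) :
    Used G u.1 ∧ Used G u.2 := by
  obtain ⟨-, s, v, h1, h2, h3⟩ := hu
  rcases h3 with rfl | rfl
  · exact ⟨⟨(s, true), rfl⟩, ⟨(v, false), rfl⟩⟩
  · exact ⟨⟨(v, false), rfl⟩, ⟨(s, true), rfl⟩⟩

variable (h : Sim G G')

include h

theorem mulP_pm {q : Port p n} (hq : Used G q) : G'.mulP (h.pm q) = G.mulP q := by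
  classical
  unfold Glue.mulP
  symm
  refine Finset.card_equiv h.φ ?_
  intro s
  simp only [mem_filter, mem_univ, true_and]
  have e1 : G.ε s = q ↔ G'.ε (h.φ s) = h.pm q := by
    rw [← h.pm_ε]
    exact ⟨fun e => by rw [e], fun e => h.pm_inj ⟨(s, false), rfl⟩ hq e⟩
  have e2 : mt σ (G.ε s) = q ↔ mt σ' (G'.ε (h.φ s)) = h.pm q := by
    rw [← h.pm_mtε]
    exact ⟨fun e => by rw [e], fun e => h.pm_inj ⟨(s, true), rfl⟩ hq e⟩
  rw [e1, e2]

theorem end_iff (s : G.S) {b : Blk p n} (hb : UsedB G b) :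
    blk (mt σ (G.ε s)).1 = b ↔ blk (mt σ' (G'.ε (h.φ s))).1 = h.bm b := by
  rw [← h.bm_mtε]
  exact ⟨fun e => by rw [e], fun e => h.bm_inj ⟨(s, true), rfl⟩ hb e⟩

theorem start_iff (s : G.S) {b : Blk p n} (hb : UsedB G b) :
    blk (G.ε s).1 = b ↔ blk (G'.ε (h.φ s)).1 = h.bm b := by
  rw [← h.bm_ε]
  exact ⟨fun e => by rw [e], fun e => h.bm_inj ⟨(s, false), rfl⟩ hb e⟩

theorem mulB_bm {b : Blk p n} (hb : UsedB G b) : G'.mulB (h.bm b) = G.mulB b := by
  classical
  unfold Glue.mulB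
  symm
  congr 1
  · refine Finset.card_equiv h.φ ?_
    intro s
    simp only [mem_filter, mem_univ, true_and]
    exact h.end_iff s hb
  · refine Finset.card_equiv h.φ ?_
    intro s
    simp only [mem_filter, mem_univ, true_and]
    rw [h.start_iff s hb, h.ysymm_none s]

theorem reg_bm_of {b : Blk p n} (hr : G.Reg b) : G'.Reg (h.bm b) := by
  have hb : UsedB G b := usedB_of_reg hr
  obtain ⟨⟨s0, h1⟩, h2, h3, h4⟩ := hr
  refine ⟨⟨h.φ s0, (h.end_iff s0 hb).1 h1⟩, ?_, ?_, ?_⟩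
  · intro s hs
    obtain ⟨t, rfl⟩ := h.φ.surjective s
    obtain ⟨v, hv⟩ := h2 t ((h.end_iff t hb).2 hs)
    exact ⟨h.φ v, (h.y _ _).1 hv⟩
  · intro s hs
    obtain ⟨t, rfl⟩ := h.φ.surjective s
    obtain ⟨v, hv⟩ := h3 t ((h.start_iff t hb).2 hs)
    exact ⟨h.φ v, (h.y _ _).1 hv⟩
  · intro s v s' v' e1 e2 e3 e4
    obtain ⟨s, rfl⟩ := h.φ.surjective s
    obtain ⟨v, rfl⟩ := h.φ.surjective v
    obtain ⟨s', rfl⟩ := h.φ.surjective s'
    obtain ⟨v', rfl⟩ := h.φ.surjective v'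
    have := h4 s v s' v' ((h.y _ _).2 e1) ((h.y _ _).2 e2) ((h.end_iff s hb).2 e3)
      ((h.end_iff s' hb).2 e4)
    rw [← h.pm_mtε, ← h.pm_mtε, ← h.pm_ε, ← h.pm_ε]
    rcases this with ⟨k1, k2⟩ | ⟨k1, k2⟩
    · left
      rw [k1, k2]
      exact ⟨rfl, rfl⟩
    · right
      rw [k1, k2]
      exact ⟨rfl, rfl⟩

theorem reg_bm {b : Blk p n} (hb : UsedB G b) : G.Reg b ↔ G'.Reg (h.bm b) := by
  refine ⟨h.reg_bm_of, fun hr => ?_⟩
  have := h.symm.reg_bm_of hr
  rwa [h.bm_bm hb] at this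

theorem or_pm {u w : Port p n × Port p n} (hu : G.OR u w) :
    G'.OR (h.pm u.1, h.pm u.2) (h.pm w.1, h.pm w.2) := by
  obtain ⟨s, s', v, v', h1, h2, h3, h4, h5, rfl, rfl⟩ := hu
  refine ⟨h.φ s, h.φ s', h.φ v, h.φ v', (h.pair _ _).1 h1, (h.y _ _).1 h2, (h.y _ _).1 h3, ?_, ?_,
    ?_, ?_⟩
  · rw [← h.bm_mtε]
    exact (h.reg_bm ⟨(s, true), rfl⟩).1 h4
  · rw [← h.bm_mtε]
    exact (h.reg_bm ⟨(s', true), rfl⟩).1 h5
  · simp only [h.pm_mtε, h.pm_ε]
  · simp only [h.pm_mtε, h.pm_ε]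

theorem oe_pm {u w : Port p n × Port p n} (hu : G.OE u w) :
    G'.OE (h.pm u.1, h.pm u.2) (h.pm w.1, h.pm w.2) := by
  induction hu with
  | rel x y hxy => exact Relation.EqvGen.rel _ _ (h.or_pm hxy)
  | refl x => exact Relation.EqvGen.refl _
  | symm x y _ ih => exact Relation.EqvGen.symm _ _ ih
  | trans x y z _ _ ih1 ih2 => exact Relation.EqvGen.trans _ _ _ ih1 ih2

theorem ou_pm {b : Blk p n} {u : Port p n × Port p n} (hu : G.OU b u) :
    G'.OU (h.bm b) (h.pm u.1, h.pm u.2) := by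
  obtain ⟨hr, s, v, h1, rfl, h3⟩ := hu
  refine ⟨h.reg_bm_of hr, h.φ s, h.φ v, (h.y _ _).1 h1, (h.bm_mtε s).symm, ?_⟩
  rcases h3 with rfl | rfl
  · left
    simp only [h.pm_mtε, h.pm_ε]
  · right
    simp only [h.pm_mtε, h.pm_ε]

theorem rb_bm {b b' : Blk p n} (hb : G.RB b b') : G'.RB (h.bm b) (h.bm b') := by
  obtain ⟨u, u', h1, h2, h3⟩ := hb
  exact ⟨_, _, h.ou_pm h1, h.ou_pm h2, h.oe_pm h3⟩

omit h in
/-- the density of the label of a unit does not depend on the orientation -/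
theorem rho_ou {b : Blk p n} {u w : Port p n × Port p n} (hu : G.OU b u) (hw : G.OU b w) :
    rho p n (lam w) = rho p n (lam u) := by
  rcases hu.two hw with rfl | rfl
  · rfl
  · obtain ⟨u1, u2⟩ := u
    rw [Prod.swap_prod_mk, lam_swap, rho_rev]

/-- the transported realization -/
noncomputable def rlz (hR : G.Red) (hR' : G'.Red) (t : ℕ) (ht : 1 ≤ t) :
    Rlz (G.ptn hR t ht) σ' where
  prt k := h.pm ((G.rlz hR t ht).prt k)
  mate e := by
    have hu : Used G ((G.rlz hR t ht).prt (e, true)) := by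
      refine used_of_mulP (ht.trans (e.2.trans ?_))
      exact (G.mulP_hc (e.1, true)).ge
    rw [← h.pm_mt hu, (G.rlz hR t ht).mate e]
  inj := by
    intro k l hkl
    have hu : ∀ k : (G.ptn hR t ht).E × Bool, Used G ((G.rlz hR t ht).prt k) := by
      intro k
      refine used_of_mulP (ht.trans (k.1.2.trans ?_))
      exact (G.mulP_hc (k.1.1, k.2)).ge
    exact (G.rlz hR t ht).inj (h.pm_inj (hu k) (hu l) hkl)
  vb v := h.bm v.1
  hv k v hk := by
    have hu : Used G ((G.rlz hR t ht).prt k) := by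
      refine used_of_mulP (ht.trans (k.1.2.trans ?_))
      exact (G.mulP_hc (k.1.1, k.2)).ge
    rw [h.blk_pm hu, (G.rlz hR t ht).hv k v hk]
    rfl
  L k := lam (h.pm (G.u0 k.1 k.reg).1, h.pm (G.u0 k.1 k.reg).2)
  hblk r := by
    have hu : ∀ k : (G.ptn hR t ht).E × Bool, Used G ((G.rlz hR t ht).prt k) := by
      intro k
      refine used_of_mulP (ht.trans (k.1.2.trans ?_))
      exact (G.mulP_hc (k.1.1, k.2)).ge
    rw [h.blk_pm (hu _), h.blk_pm (hu _), (G.rlz hR t ht).hblk r]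
  hlam x := by
    have h1 : (G.rlz hR t ht).prt ((G.ptn hR t ht).hf (x, true)) = (G.fu x.1 x.2.1).1 :=
      Glue.hc_hf hR t (x, true)
    have h2 : (G.rlz hR t ht).prt ((G.ptn hR t ht).hf (x, false)) = (G.fu x.1 x.2.1).2 :=
      Glue.hc_hf hR t (x, false)
    rw [h1, h2]
    change _ = lam _
    exact ((h.oe_pm (G.fu_oe x.1 x.2.1)).lam_eq hR').symm

omit h in
theorem card_ET (hR : G.Red) (t : ℕ) (ht : 1 ≤ t) :
    2 * Fintype.card (G.ptn hR t ht).E = (univ.filter fun q : Port p n => t ≤ G.mulP q).card := by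
  classical
  have h1 : Fintype.card ((G.ptn hR t ht).E × Bool) =
      (univ.filter fun q : Port p n => t ≤ G.mulP q).card := by
    rw [← Finset.card_univ]
    refine Finset.card_bij (fun k _ => (G.rlz hR t ht).prt k) ?_ ?_ ?_
    · intro k _
      rw [mem_filter]
      exact ⟨mem_univ _, k.1.2.trans (G.mulP_hc (k.1.1, k.2)).ge⟩
    · intro k _ l _ hkl
      exact (G.rlz hR t ht).inj hkl
    · intro q hq
      rw [mem_filter] at hq
      refine ⟨(⟨(qh σ q).1, by rw [G.mulP_qh]; exact hq.2⟩, (qh σ q).2), mem_univ _, ?_⟩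
      exact hc_qh q
  rw [← h1, Fintype.card_prod, Fintype.card_bool, mul_comm]

theorem card_E_eq (hR : G.Red) (hR' : G'.Red) (t : ℕ) (ht : 1 ≤ t) :
    Fintype.card (G'.ptn hR' t ht).E = Fintype.card (G.ptn hR t ht).E := by
  classical
  have h1 := card_ET hR t ht
  have h2 := card_ET hR' t ht
  have h3 : (univ.filter fun q : Port p n => t ≤ G.mulP q).card =
      (univ.filter fun q : Port p n => t ≤ G'.mulP q).card := by
    refine Finset.card_bij' (fun q _ => h.pm q) (fun q _ => h.symm.pm q) ?_ ?_ ?_ ?_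
    · intro q hq
      rw [mem_filter] at hq ⊢
      refine ⟨mem_univ _, ?_⟩
      rw [h.mulP_pm (used_of_mulP (ht.trans hq.2))]
      exact hq.2
    · intro q hq
      rw [mem_filter] at hq ⊢
      refine ⟨mem_univ _, ?_⟩
      rw [h.symm.mulP_pm (used_of_mulP (ht.trans hq.2))]
      exact hq.2
    · intro q hq
      rw [mem_filter] at hq
      exact h.pm_pm (used_of_mulP (ht.trans hq.2))
    · intro q hq
      rw [mem_filter] at hq
      exact h.pm_pm' (used_of_mulP (ht.trans hq.2))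
  omega

/-- blocks of a level -/
noncomputable def eB (P : Prop → Prop) (t : ℕ) (ht : 1 ≤ t) :
    {b : Blk p n // P (G.Reg b) ∧ t ≤ G.mulB b} ≃ {b : Blk p n // P (G'.Reg b) ∧ t ≤ G'.mulB b} where
  toFun b := ⟨h.bm b.1, by
    have hu := usedB_of_mulB (ht.trans b.2.2)
    rw [h.mulB_bm hu, ← propext (h.reg_bm hu)]
    exact b.2⟩
  invFun b := ⟨h.symm.bm b.1, by
    have hu := usedB_of_mulB (ht.trans b.2.2)
    rw [h.symm.mulB_bm hu, ← propext (h.symm.reg_bm hu)]
    exact b.2⟩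
  left_inv b := Subtype.ext (h.bm_bm (usedB_of_mulB (ht.trans b.2.2)))
  right_inv b := Subtype.ext (h.bm_bm' (usedB_of_mulB (ht.trans b.2.2)))

/-- regular blocks of a level -/
noncomputable def eR (t : ℕ) (ht : 1 ≤ t) : G.RT t ≃ G'.RT t := h.eB (fun P => P) t ht

/-- irregular blocks of a level -/
noncomputable def eV (t : ℕ) (ht : 1 ≤ t) : G.VT t ≃ G'.VT t := h.eB (fun P => ¬ P) t ht

theorem eR_val (t : ℕ) (ht : 1 ≤ t) (x : G.RT t) : (h.eR t ht x).1 = h.bm x.1 := rfl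

/-- classes of a level -/
noncomputable def eC (t : ℕ) : G.CT t ≃ G'.CT t where
  toFun k := ⟨G'.rep (h.bm k.1), by
    obtain ⟨k, b, h1, h2, rfl⟩ := k
    refine ⟨h.bm b, h.reg_bm_of h1, ?_, (h.rb_bm h1.rep).rep_eq⟩
    rw [h.mulB_bm (usedB_of_reg h1)]
    exact h2⟩
  invFun k := ⟨G.rep (h.symm.bm k.1), by
    obtain ⟨k, b, h1, h2, rfl⟩ := k
    refine ⟨h.symm.bm b, h.symm.reg_bm_of h1, ?_, (h.symm.rb_bm h1.rep).rep_eq⟩
    rw [h.symm.mulB_bm (usedB_of_reg h1)]
    exact h2⟩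
  left_inv k := by
    obtain ⟨k, b, h1, h2, rfl⟩ := k
    apply Subtype.ext
    change G.rep (h.symm.bm (G'.rep (h.bm (G.rep b)))) = G.rep b
    have h3 : G'.RB (h.bm (G.rep b)) (G'.rep (h.bm (G.rep b))) :=
      (h.reg_bm_of h1.rep_reg).rep
    have h4 := (h.symm.rb_bm h3).rep_eq
    rw [← h4, h.bm_bm (usedB_of_reg h1.rep_reg)]
    exact h1.rep_rep
  right_inv k := by
    obtain ⟨k, b, h1, h2, rfl⟩ := k
    apply Subtype.ext
    change G'.rep (h.bm (G.rep (h.symm.bm (G'.rep b)))) = G'.rep b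
    have h3 : G.RB (h.symm.bm (G'.rep b)) (G.rep (h.symm.bm (G'.rep b))) :=
      (h.symm.reg_bm_of h1.rep_reg).rep
    have h4 := (h.rb_bm h3).rep_eq
    rw [← h4, h.bm_bm' (usedB_of_reg h1.rep_reg)]
    exact h1.rep_rep

omit h in
open Classical in
theorem H_eq (hR : G.Red) (t : ℕ) (ht : 1 ≤ t) : (G.ptn hR t ht).H =
    (univ.filter fun q : Port p n => t ≤ G.mulP q ∧ ¬ G.Reg (blk q.1)).card := by
  classical
  unfold Ptn.H
  refine Finset.card_bij (fun k _ => (G.rlz hR t ht).prt k) ?_ ?_ ?_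
  · intro k hk
    rw [mem_filter] at hk
    rw [mem_filter]
    refine ⟨mem_univ _, k.1.2.trans (G.mulP_hc (k.1.1, k.2)).ge, ?_⟩
    intro hr
    have h1 := hk.2
    have h2 : (G.ptn hR t ht).att k = G.attQ t ((G.rlz hR t ht).prt k) (Glue.att_le hR k) := rfl
    rw [h2] at h1
    unfold Glue.attQ at h1
    rw [dif_pos hr] at h1
    exact Bool.false_ne_true h1
  · intro k _ l _ hkl
    exact (G.rlz hR t ht).inj hkl
  · intro q hq
    rw [mem_filter] at hq
    let k : (G.ptn hR t ht).E × Bool := (⟨(qh σ q).1, by rw [G.mulP_qh]; exact hq.2.1⟩, (qh σ q).2)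
    have hk : (G.rlz hR t ht).prt k = q := hc_qh q
    refine ⟨k, ?_, hk⟩
    rw [mem_filter]
    refine ⟨mem_univ _, ?_⟩
    have h2 : (G.ptn hR t ht).att k = G.attQ t ((G.rlz hR t ht).prt k) (Glue.att_le hR k) := rfl
    rw [h2]
    unfold Glue.attQ
    have hr : ¬ G.Reg (blk ((G.rlz hR t ht).prt k).1) := by rw [hk]; exact hq.2.2
    rw [dif_neg hr]
    rfl

theorem card_H_eq (hR : G.Red) (hR' : G'.Red) (t : ℕ) (ht : 1 ≤ t) :
    (G'.ptn hR' t ht).H = (G.ptn hR t ht).H := by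
  classical
  rw [H_eq, H_eq]
  symm
  refine Finset.card_bij' (fun q _ => h.pm q) (fun q _ => h.symm.pm q) ?_ ?_ ?_ ?_
  · intro q hq
    rw [mem_filter] at hq ⊢
    have hu := used_of_mulP (ht.trans hq.2.1)
    refine ⟨mem_univ _, ?_, ?_⟩
    · rw [h.mulP_pm hu]
      exact hq.2.1
    · rw [h.blk_pm hu, ← h.reg_bm (usedB_of_mulB ((ht.trans hq.2.1).trans (Glue.mulP_le hR q)))]
      exact hq.2.2
  · intro q hq
    rw [mem_filter] at hq ⊢
    have hu := used_of_mulP (ht.trans hq.2.1)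
    refine ⟨mem_univ _, ?_, ?_⟩
    · rw [h.symm.mulP_pm hu]
      exact hq.2.1
    · rw [h.symm.blk_pm hu,
        ← h.symm.reg_bm (usedB_of_mulB ((ht.trans hq.2.1).trans (Glue.mulP_le hR' q)))]
      exact hq.2.2
  · intro q hq
    rw [mem_filter] at hq
    exact h.pm_pm (used_of_mulP (ht.trans hq.2.1))
  · intro q hq
    rw [mem_filter] at hq
    exact h.pm_pm' (used_of_mulP (ht.trans hq.2.1))

/-- **Transport**: the inequality (U) for the canonical realization of `G'` follows from the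
inequalities for the realizations of the pattern of a similar gluing `G`. -/
theorem uineq (hR : G.Red) (hR' : G'.Red) (t : ℕ) (ht : 1 ≤ t) {C1 K0 : ℝ}
    (hU : UIneq (h.rlz hR hR' t ht) C1 K0) : UIneq (G'.rlz hR' t ht) C1 K0 := by
  unfold UIneq at hU ⊢
  have e1 := h.card_E_eq hR hR' t ht
  have e2 : Fintype.card (G.ptn hR t ht).V = Fintype.card (G'.ptn hR' t ht).V :=
    Fintype.card_congr (h.eV t ht)
  have e3 : Fintype.card (G.ptn hR t ht).R = Fintype.card (G'.ptn hR' t ht).R :=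
    Fintype.card_congr (h.eR t ht)
  have e4 := h.card_H_eq hR hR' t ht
  have e5 : ∑ x : (G'.ptn hR' t ht).R,
      Real.log (rho p n ((G'.rlz hR' t ht).L ((G'.ptn hR' t ht).cl x).1)) =
      ∑ x : (G.ptn hR t ht).R,
      Real.log (rho p n ((h.rlz hR hR' t ht).L ((G.ptn hR t ht).cl x).1)) := by
    symm
    refine Fintype.sum_equiv (show (G.ptn hR t ht).R ≃ (G'.ptn hR' t ht).R from h.eR t ht) _ _ ?_
    intro x
    congr 1
    change rho p n (lam (h.pm (G.u0 (G.rep x.1) _).1, h.pm (G.u0 (G.rep x.1) _).2)) =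
      rho p n (lam (G'.u0 (G'.rep (h.bm x.1)) _))
    have hx : G.Reg x.1 := x.2.1
    have k1 := (h.oe_pm (G.fu_oe x.1 hx)).lam_eq hR'
    have k2 := G'.fu_lam hR' (h.bm x.1) (h.reg_bm_of hx)
    rw [k1]
    refine (rho_ou (h.ou_pm (G.fu_ou x.1 hx)) (G'.fu_ou (h.bm x.1) (h.reg_bm_of hx))).symm.trans ?_
    rw [k2]
  have e6 : ∑ c : (G'.ptn hR' t ht).C,
      (Real.log 2 + 2 * Real.log (rho p n ((G'.rlz hR' t ht).L c))) =
      ∑ c : (G.ptn hR t ht).C,
      (Real.log 2 + 2 * Real.log (rho p n ((h.rlz hR hR' t ht).L c))) := by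
    symm
    refine Fintype.sum_equiv (show (G.ptn hR t ht).C ≃ (G'.ptn hR' t ht).C from h.eC t) _ _ ?_
    intro k
    congr 3
    change rho p n (lam (h.pm (G.u0 k.1 _).1, h.pm (G.u0 k.1 _).2)) =
      rho p n (lam (G'.u0 (G'.rep (h.bm k.1)) _))
    have hk : G.Reg k.1 := k.reg
    have k2 := G'.fu_lam hR' (h.bm k.1) (h.reg_bm_of hk)
    refine (rho_ou (h.ou_pm (G.u0_spec k.1 hk)) (G'.fu_ou (h.bm k.1)
      (h.reg_bm_of hk))).symm.trans ?_
    rw [k2]
  rw [e1, e4, e5, e6, ← e2, ← e3]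
  exact hU

end Sim

namespace Rec

open Classical in
/-- number of edges of a level -/
theorem card_E_le {G : Glue σ} (hR : G.Red) (t : ℕ) (ht : 1 ≤ t) :
    Fintype.card (G.ptn hR t ht).E ≤ Fintype.card G.S := by
  have hex : ∀ c : (G.ptn hR t ht).E, ∃ s : G.S, G.ε s = (c.1, true) ∨ mt σ (G.ε s) = (c.1, true) := by
    intro c
    have h1 : 1 ≤ G.mulP (c.1, true) := ht.trans c.2
    unfold Glue.mulP at h1
    obtain ⟨s, hs⟩ := card_pos.1 h1
    exact ⟨s, (mem_filter.1 hs).2⟩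
  choose f hf using hex
  refine Fintype.card_le_of_injective f ?_
  intro c c' hcc
  have h1 := hf c
  have h2 := hf c'
  rw [← hcc] at h2
  apply Subtype.ext
  rcases h1 with h1 | h1 <;> rcases h2 with h2 | h2
  · exact congrArg Prod.fst (h1.symm.trans h2)
  · rw [h1] at h2
    have := congrArg Prod.snd h2
    simp [mt] at this
  · rw [h2] at h1
    have := congrArg Prod.snd h1
    simp [mt] at this
  · exact congrArg Prod.fst (h1.symm.trans h2)

open Classical in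
theorem dens_of_reg {G : Glue σ} {b : Blk p n} (h : G.Reg b) :
    G.dens b = rho p n (lam (G.u0 b h)) := by
  unfold Glue.dens
  rw [dif_pos h]

/-- the inequality in terms of `G` -/
theorem levU_of {G : Glue σ} (hR : G.Red) (t : ℕ) (ht : 1 ≤ t) {C1 K0 : ℝ}
    (hU : UIneq (G.rlz hR t ht) C1 K0) : G.LevU C1 K0 t := by
  classical
  unfold UIneq at hU
  unfold Glue.LevU
  have e1 : Fintype.card (G.ptn hR t ht).E =
      (univ.filter fun c : Cel p n => t ≤ G.mulP (c, true)).card :=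
    Fintype.card_of_subtype _ (by simp)
  have e2 : Fintype.card (G.ptn hR t ht).V =
      (univ.filter fun b : Blk p n => ¬ G.Reg b ∧ t ≤ G.mulB b).card :=
    Fintype.card_of_subtype _ (by simp)
  have e3 : Fintype.card (G.ptn hR t ht).R =
      (univ.filter fun b : Blk p n => G.Reg b ∧ t ≤ G.mulB b).card :=
    Fintype.card_of_subtype _ (by simp)
  have e4 : (univ.filter fun b : Blk p n => t ≤ G.mulB b).card =
      (univ.filter fun b : Blk p n => G.Reg b ∧ t ≤ G.mulB b).card +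
      (univ.filter fun b : Blk p n => ¬ G.Reg b ∧ t ≤ G.mulB b).card := by
    rw [← Finset.card_filter_add_card_filter_not (s := univ.filter fun b : Blk p n => t ≤ G.mulB b)
      (fun b => G.Reg b), Finset.filter_filter, Finset.filter_filter]
    congr 2
    · ext b
      simp only [mem_filter, mem_univ, true_and, and_comm]
    · ext b
      simp only [mem_filter, mem_univ, true_and, and_comm]
  have e5 : ∑ x : (G.ptn hR t ht).R,
      Real.log (rho p n ((G.rlz hR t ht).L ((G.ptn hR t ht).cl x).1)) =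
      ∑ b ∈ univ.filter (fun b : Blk p n => G.Reg b ∧ t ≤ G.mulB b),
        Real.log (G.dens (G.rep b)) := by
    symm
    refine (Finset.sum_subtype (p := fun b : Blk p n => G.Reg b ∧ t ≤ G.mulB b)
      (F := (G.ptn hR t ht).fR) _ (by simp) _).trans ?_
    refine Finset.sum_congr rfl fun x _ => ?_
    rw [dens_of_reg x.2.1.rep_reg]
    rfl
  have e6 : ∑ c : (G.ptn hR t ht).C,
      (Real.log 2 + 2 * Real.log (rho p n ((G.rlz hR t ht).L c))) =
      ∑ k ∈ (univ.filter fun b : Blk p n => G.Reg b ∧ t ≤ G.mulB b).image G.rep,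
        (Real.log 2 + 2 * Real.log (G.dens k)) := by
    symm
    refine (Finset.sum_subtype (p := fun k : Blk p n => ∃ b, G.Reg b ∧ t ≤ G.mulB b ∧ G.rep b = k)
      (F := (G.ptn hR t ht).fC) _ (by simp [and_assoc]) _).trans ?_
    refine Finset.sum_congr rfl fun x _ => ?_
    rw [dens_of_reg (Glue.CT.reg x)]
    rfl
  have e7 : (G.ptn hR t ht).H =
      (univ.filter fun q : Port p n => ¬ G.Reg (blk q.1) ∧ t ≤ G.mulP q).card := by
    rw [Sim.H_eq]
    congr 1
    ext q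
    simp only [mem_filter, mem_univ, true_and, and_comm]
  rw [e1, e2, e3, e5, e6, e7] at hU
  rw [e4]
  push_cast
  linarith

/-- the empty pattern -/
def ptn0 : Ptn where
  E := Empty
  V := Empty
  R := Empty
  C := Empty
  att h := h.1.elim
  hf x := x.1.elim
  att_hf x := x.1.elim
  hf_unique h := h.1.elim
  cl r := r.elim
  cl_surj c := c.elim

end Rec

/-- **Block (A2).** -/
theorem stmtRcd : StmtRcd := by
  intro p n F c t ht
  by_cases hex : ∃ (σ : Equiv.Perm (Cel p n)) (G : Glue σ) (e : G.S ≃ Fin F), G.Red ∧ IsCmb G e c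
  · obtain ⟨σ0, G0, e0, hR0, hc0⟩ := hex
    refine ⟨G0.ptn hR0 t ht, ?_, ?_⟩
    · refine (Rec.card_E_le hR0 t ht).trans ?_
      rw [Fintype.card_congr e0, Fintype.card_fin]
    · intro σ G e hR hc C1 K0 hU
      have h : Sim G0 G := Sim.of_cmb (hc0.trans hc.symm)
      exact Rec.levU_of hR t ht (h.uineq hR0 hR t ht (hU _))
  · refine ⟨Rec.ptn0, ?_, ?_⟩
    · have h0 : Fintype.card Rec.ptn0.E = 0 :=
        Fintype.card_eq_zero_iff.2 (inferInstanceAs (IsEmpty Empty))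
      rw [h0]
      exact Nat.zero_le _
    intro σ G e hR hc
    exact absurd ⟨σ, G, e, hR, hc⟩ hex

end Vale.Agent.P201.Z
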