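import Vale.Agent.P201.Z.C.Defs

/-!
P201, interface C / LA: abstract patterns (helper26).  See the P201 note of helper26 (19:33).
-/

namespace Vale.Agent.P201.Z

open Finset

variable {p : Pat} {n : ℕ}

/-- An abstract pattern: `E` edges, `V` irregular vertices, `R` regular vertices, `C` label classes.
`att h` is the place of the half-edge `h = (e, side)`: an irregular vertex `v`, or the first
(`true`) / second (`false`) port of a regular vertex `r`.  `cl r` = class of `r` and sign. -/
structure Ptn where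
  E : Type
  V : Type
  R : Type
  C : Type
  [fE : Fintype E] [fV : Fintype V] [fR : Fintype R] [fC : Fintype C]
  [dE : DecidableEq E] [dV : DecidableEq V] [dR : DecidableEq R] [dC : DecidableEq C]
  att : E × Bool → V ⊕ (R × Bool)
  /-- the half-edge sitting at the first / second port of a regular vertex -/
  hf : R × Bool → E × Bool
  att_hf : ∀ x, att (hf x) = Sum.inr x
  hf_unique : ∀ h x, att h = Sum.inr x → h = hf x
  cl : R → C × Bool
  /-- every class is used -/
  cl_surj : ∀ c, ∃ r, (cl r).1 = c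

attribute [instance] Ptn.fE Ptn.fV Ptn.fR Ptn.fC Ptn.dE Ptn.dV Ptn.dR Ptn.dC

/-- number of half-edges at irregular vertices -/
def Ptn.H (P : Ptn) : ℕ := (univ.filter (fun h : P.E × Bool => (P.att h).isLeft = true)).card

/-- A realization of a pattern in the matching `σ`. -/
structure Rlz (P : Ptn) (σ : Equiv.Perm (Cel p n)) where
  prt : P.E × Bool → Port p n
  mate : ∀ e, mt σ (prt (e, true)) = prt (e, false)
  inj : Function.Injective prt
  vb : P.V → Blk p n
  hv : ∀ h v, P.att h = Sum.inl v → blk (prt h).1 = vb v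
  L : P.C → Lbl p
  hblk : ∀ r, blk (prt (P.hf (r, true))).1 = blk (prt (P.hf (r, false))).1
  hlam : ∀ r, lam (prt (P.hf (r, true)), prt (P.hf (r, false))) =
    if (P.cl r).2 then L (P.cl r).1 else rev (L (P.cl r).1)

/-- **Inequality (U)** for a realization (`K0 = log #family`). -/
def UIneq {P : Ptn} {σ : Equiv.Perm (Cel p n)} (r : Rlz P σ) (C1 K0 : ℝ) : Prop :=
  ((Fintype.card P.E : ℝ) - Fintype.card P.V - Fintype.card P.R) *
      Real.log (Fintype.card (Cel p n)) ≤
    ∑ x : P.R, Real.log (rho p n (r.L (P.cl x).1)) -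
      ∑ c : P.C, (Real.log 2 + 2 * Real.log (rho p n (r.L c))) +
      C1 * (Fintype.card P.V + P.H + 1) + K0

/-- PART C (from `StmtB` and `StmtRho`) -/
def StmtU : Prop :=
  ∀ p : Pat, p.Good → ∃ C1 : ℝ, 0 ≤ C1 ∧ ∀ n g M : ℕ, 0 < n →
    (2 * M + 2) * ((4 * p.Ttot + 2) ^ (g + 3) + M) ≤ Fintype.card (Cel p n) →
    ∀ (ι : Type) [Fintype ι] [Nonempty ι] (PP : ι → Ptn), (∀ i, Fintype.card (PP i).E ≤ M) →
      ∃ σ : Equiv.Perm (Cel p n), Girth σ g ∧ ∀ i, ∀ r : Rlz (PP i) σ,
        UIneq r C1 (Real.log (Fintype.card ι))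

end Vale.Agent.P201.Z
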