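import Vale.Agent.P201.Z.LA.LA2
import Vale.Agent.P201.Z.LA.PDefs

/-!
P201, part LA3: multiplicities, regular blocks, classes (helper576).
-/

namespace Vale.Agent.P201.Z

open Finset

variable {p : Pat} {n : ℕ} {σ : Equiv.Perm (Cel p n)}

/-- the port of a half-edge `(c, side)`: `(c, true)` or `(σ c, false)` -/
noncomputable def hc (σ : Equiv.Perm (Cel p n)) (h : Cel p n × Bool) : Port p n :=
  if h.2 then (h.1, true) else (σ h.1, false)

/-- the half-edge of a port -/
noncomputable def qh (σ : Equiv.Perm (Cel p n)) (q : Port p n) : Cel p n × Bool :=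
  if q.2 then (q.1, true) else (σ.symm q.1, false)

theorem hc_qh (q : Port p n) : hc σ (qh σ q) = q := by
  obtain ⟨c, e⟩ := q
  cases e <;> simp [hc, qh]

theorem qh_hc (h : Cel p n × Bool) : qh σ (hc σ h) = h := by
  obtain ⟨c, e⟩ := h
  cases e <;> simp [hc, qh]

theorem mt_hc (c : Cel p n) (e : Bool) : mt σ (hc σ (c, e)) = hc σ (c, !e) := by
  cases e <;> simp [hc, mt]

namespace Glue

variable (G : Glue σ)

open Classical in
/-- multiplicity of the edge of the port `q` -/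
noncomputable def mulP (q : Port p n) : ℕ :=
  (univ.filter fun s : G.S => G.ε s = q ∨ mt σ (G.ε s) = q).card

open Classical in
/-- multiplicity of a block: number of y-edges at the block -/
noncomputable def mulB (b : Blk p n) : ℕ :=
  (univ.filter fun s : G.S => blk (mt σ (G.ε s)).1 = b).card +
  (univ.filter fun s : G.S => G.Y.symm s = none ∧ blk (G.ε s).1 = b).card

/-- regular blocks -/
structure Reg (b : Blk p n) : Prop where
  vis : ∃ s, blk (mt σ (G.ε s)).1 = b
  dom : ∀ s, blk (mt σ (G.ε s)).1 = b → ∃ v, G.Y s = some v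
  ran : ∀ s, blk (G.ε s).1 = b → ∃ r, G.Y r = some s
  unit : ∀ s v s' v', G.Y s = some v → G.Y s' = some v' → blk (mt σ (G.ε s)).1 = b →
    blk (mt σ (G.ε s')).1 = b →
    (mt σ (G.ε s') = mt σ (G.ε s) ∧ G.ε v' = G.ε v) ∨
    (mt σ (G.ε s') = G.ε v ∧ G.ε v' = mt σ (G.ε s))

/-- `u` is an oriented unit used at the regular block `b` -/
def OU (b : Blk p n) (u : Port p n × Port p n) : Prop :=
  G.Reg b ∧ ∃ s v, G.Y s = some v ∧ blk (mt σ (G.ε s)).1 = b ∧
    (u = (mt σ (G.ε s), G.ε v) ∨ u = (G.ε v, mt σ (G.ε s)))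

/-- elementary correspondence of oriented units given by a pair of links -/
def OR (u w : Port p n × Port p n) : Prop :=
  ∃ s s' v v', G.Pair s s' ∧ G.Y s = some v ∧ G.Y s' = some v' ∧
    G.Reg (blk (mt σ (G.ε s)).1) ∧ G.Reg (blk (mt σ (G.ε s')).1) ∧
    u = (mt σ (G.ε s), G.ε v) ∧ w = (G.ε v', mt σ (G.ε s'))

/-- correspondence of oriented units -/
def OE (u w : Port p n × Port p n) : Prop := Relation.EqvGen G.OR u w

/-- regular blocks of the same class -/
def RB (b b' : Blk p n) : Prop := ∃ u u', G.OU b u ∧ G.OU b' u' ∧ G.OE u u'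

open Classical in
/-- the representative of a class of regular blocks -/
noncomputable def rep (b : Blk p n) : Blk p n :=
  if h : ∃ b', G.RB b b' then Classical.choose h else b

variable {G}

theorem Reg.ex {b : Blk p n} (h : G.Reg b) : ∃ u, G.OU b u := by
  obtain ⟨s, hs⟩ := h.vis
  obtain ⟨v, hv⟩ := h.dom s hs
  exact ⟨_, h, s, v, hv, hs, Or.inl rfl⟩

theorem OU.reg {b : Blk p n} {u : Port p n × Port p n} (h : G.OU b u) : G.Reg b := h.1

theorem OU.swap {b : Blk p n} {u : Port p n × Port p n} (h : G.OU b u) : G.OU b u.swap := by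
  obtain ⟨hr, s, v, h1, h2, h3⟩ := h
  refine ⟨hr, s, v, h1, h2, ?_⟩
  rcases h3 with rfl | rfl
  · exact Or.inr rfl
  · exact Or.inl rfl

theorem OU.two {b : Blk p n} {u w : Port p n × Port p n} (h : G.OU b u) (h' : G.OU b w) :
    w = u ∨ w = u.swap := by
  obtain ⟨hr, s, v, h1, h2, h3⟩ := h
  obtain ⟨-, s', v', k1, k2, k3⟩ := h'
  rcases hr.unit s v s' v' h1 k1 h2 k2 with ⟨e1, e2⟩ | ⟨e1, e2⟩ <;>
  rcases h3 with rfl | rfl <;> rcases k3 with rfl | rfl <;> rw [e1, e2] <;> simp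

theorem OU.isU (hR : G.Red) {b : Blk p n} {u : Port p n × Port p n} (h : G.OU b u) : IsU u := by
  obtain ⟨hr, s, v, h1, h2, h3⟩ := h
  have h4 := hR.y s v h1
  rcases h3 with rfl | rfl
  · exact ⟨h4.1, Ne.symm h4.2⟩
  · exact ⟨h4.1.symm, h4.2⟩

theorem OU.blk1 (hR : G.Red) {b : Blk p n} {u : Port p n × Port p n} (h : G.OU b u) :
    blk u.1.1 = b := by
  obtain ⟨hr, s, v, h1, h2, h3⟩ := h
  have h4 := hR.y s v h1
  rcases h3 with rfl | rfl
  · exact h2
  · exact h4.1.symm.trans h2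

theorem OU.blk2 (hR : G.Red) {b : Blk p n} {u : Port p n × Port p n} (h : G.OU b u) :
    blk u.2.1 = b := h.swap.blk1 hR

theorem OR.lam_eq (hR : G.Red) {u w : Port p n × Port p n} (h : G.OR u w) : lam u = lam w := by
  obtain ⟨s, s', v, v', h1, h2, h3, -, -, rfl, rfl⟩ := h
  have h4 := h1.lam_eq hR h2 h3
  rw [lam_swap (mt σ (G.ε s')) (G.ε v'), h4, rev_rev]

theorem OR.swap {u w : Port p n × Port p n} (h : G.OR u w) : G.OR w.swap u.swap := by
  obtain ⟨s, s', v, v', h1, h2, h3, h4, h5, rfl, rfl⟩ := h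
  exact ⟨s', s, v', v, h1.symm, h3, h2, h5, h4, rfl, rfl⟩

theorem OE.lam_eq (hR : G.Red) {u w : Port p n × Port p n} (h : G.OE u w) : lam u = lam w := by
  induction h with
  | rel _ _ h => exact h.lam_eq hR
  | refl _ => rfl
  | symm _ _ _ ih => exact ih.symm
  | trans _ _ _ _ _ ih1 ih2 => exact ih1.trans ih2

theorem OE.swap {u w : Port p n × Port p n} (h : G.OE u w) : G.OE u.swap w.swap := by
  induction h with
  | rel _ _ h => exact Relation.EqvGen.symm _ _ (Relation.EqvGen.rel _ _ h.swap)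
  | refl _ => exact Relation.EqvGen.refl _
  | symm _ _ _ ih => exact Relation.EqvGen.symm _ _ ih
  | trans _ _ _ _ _ ih1 ih2 => exact Relation.EqvGen.trans _ _ _ ih1 ih2

theorem OE.refl (u : Port p n × Port p n) : G.OE u u := Relation.EqvGen.refl _

theorem OE.symm {u w : Port p n × Port p n} (h : G.OE u w) : G.OE w u :=
  Relation.EqvGen.symm _ _ h

theorem OE.trans {u w z : Port p n × Port p n} (h : G.OE u w) (h' : G.OE w z) : G.OE u z :=
  Relation.EqvGen.trans _ _ _ h h'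

theorem Reg.rb {b : Blk p n} (h : G.Reg b) : G.RB b b := by
  obtain ⟨u, hu⟩ := h.ex
  exact ⟨u, u, hu, hu, OE.refl u⟩

theorem RB.symm {b b' : Blk p n} (h : G.RB b b') : G.RB b' b := by
  obtain ⟨u, u', h1, h2, h3⟩ := h
  exact ⟨u', u, h2, h1, h3.symm⟩

theorem RB.trans {b b' b'' : Blk p n} (h : G.RB b b') (h' : G.RB b' b'') : G.RB b b'' := by
  obtain ⟨u, u', h1, h2, h3⟩ := h
  obtain ⟨w, w', k1, k2, k3⟩ := h'
  rcases h2.two k1 with rfl | rfl
  · exact ⟨u, w', h1, k2, h3.trans k3⟩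
  · exact ⟨u, w'.swap, h1, k2.swap, h3.trans (by simpa using k3.swap)⟩

theorem Reg.rep {b : Blk p n} (h : G.Reg b) : G.RB b (G.rep b) := by
  have h1 : ∃ b', G.RB b b' := ⟨b, h.rb⟩
  unfold Glue.rep
  rw [dif_pos h1]
  exact Classical.choose_spec h1

theorem RB.reg {b b' : Blk p n} (h : G.RB b b') : G.Reg b' := by
  obtain ⟨u, u', h1, h2, h3⟩ := h
  exact h2.reg

theorem RB.rep_eq {b b' : Blk p n} (h : G.RB b b') : G.rep b = G.rep b' := by
  have h1 : G.RB b = G.RB b' := by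
    funext x
    exact propext ⟨fun hx => h.symm.trans hx, fun hx => h.trans hx⟩
  have h2 : ∃ x, G.RB b x := ⟨b', h⟩
  have h3 : ∃ x, G.RB b' x := ⟨b, h.symm⟩
  unfold Glue.rep
  rw [dif_pos h2, dif_pos h3]
  congr 1

theorem Reg.rep_reg {b : Blk p n} (h : G.Reg b) : G.Reg (G.rep b) := h.rep.reg

theorem Reg.rep_rep {b : Blk p n} (h : G.Reg b) : G.rep (G.rep b) = G.rep b :=
  (h.rep.rep_eq).symm

variable (G)

/-- base unit of a regular block -/
noncomputable def u0 (b : Blk p n) (h : G.Reg b) : Port p n × Port p n := Classical.choose h.ex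

theorem u0_spec (b : Blk p n) (h : G.Reg b) : G.OU b (G.u0 b h) := Classical.choose_spec h.ex

theorem fu_ex (b : Blk p n) (h : G.Reg b) :
    ∃ u, G.OU b u ∧ G.OE (G.u0 (G.rep b) h.rep_reg) u := by
  obtain ⟨u, u', h1, h2, h3⟩ := h.rep
  rcases h2.two (G.u0_spec (G.rep b) h.rep_reg) with h4 | h4
  · exact ⟨u, h1, by rw [h4]; exact h3.symm⟩
  · exact ⟨u.swap, h1.swap, by rw [h4]; exact h3.symm.swap⟩

/-- the ordered unit of a regular block -/
noncomputable def fu (b : Blk p n) (h : G.Reg b) : Port p n × Port p n :=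
  Classical.choose (G.fu_ex b h)

theorem fu_ou (b : Blk p n) (h : G.Reg b) : G.OU b (G.fu b h) :=
  (Classical.choose_spec (G.fu_ex b h)).1

theorem fu_oe (b : Blk p n) (h : G.Reg b) : G.OE (G.u0 (G.rep b) h.rep_reg) (G.fu b h) :=
  (Classical.choose_spec (G.fu_ex b h)).2

theorem fu_lam (hR : G.Red) (b : Blk p n) (h : G.Reg b) :
    lam (G.fu b h) = lam (G.u0 (G.rep b) h.rep_reg) := ((G.fu_oe b h).lam_eq hR).symm

end Glue

end Vale.Agent.P201.Z
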