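import Vale.Agent.P201.Z.Defs

/-!
P201, part LA: cycles of partial injections (helper422).
-/

namespace Vale.Agent.P201.Z.LA422

open Finset Vale.Agent.P201.Z

variable {S : Type}

theorem pit_zero (f : S ≃. S) (s : S) : pit f 0 s = some s := rfl

theorem pit_succ (f : S ≃. S) (k : ℕ) (s : S) : pit f (k + 1) s = (f s).bind (pit f k) := rfl

theorem pit_one (f : S ≃. S) (s : S) : pit f 1 s = f s := by
  rw [pit_succ]
  cases f s <;> simp [pit]

theorem pit_add (f : S ≃. S) (a b : ℕ) (s : S) :
    pit f (a + b) s = (pit f a s).bind (pit f b) := by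
  induction a generalizing s with
  | zero => simp [pit]
  | succ a ih =>
    have h1 : a + 1 + b = (a + b) + 1 := by ring
    rw [h1, pit_succ, pit_succ]
    cases h : f s with
    | none => simp
    | some t => simp [ih]

theorem pit_add_some {f : S ≃. S} {a b : ℕ} {s t u : S} (h1 : pit f a s = some t)
    (h2 : pit f b t = some u) : pit f (a + b) s = some u := by
  rw [pit_add, h1]; simpa using h2

theorem pit_inj {f : S ≃. S} {k : ℕ} {s s' t : S} (h1 : pit f k s = some t)
    (h2 : pit f k s' = some t) : s = s' := by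
  induction k generalizing s s' with
  | zero =>
    simp only [pit_zero, Option.some.injEq] at h1 h2
    rw [h1, h2]
  | succ k ih =>
    rw [pit_succ] at h1 h2
    rw [Option.bind_eq_some_iff] at h1 h2
    obtain ⟨u, hu, hu2⟩ := h1
    obtain ⟨v, hv, hv2⟩ := h2
    have := ih hu2 hv2
    subst this
    exact f.inj hu hv

theorem pit_mul {f : S ≃. S} {k : ℕ} {s : S} (h : pit f k s = some s) (m : ℕ) :
    pit f (m * k) s = some s := by
  induction m with
  | zero => simp [pit]
  | succ m ih =>
    have : (m + 1) * k = m * k + k := by ring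
    rw [this]
    exact pit_add_some ih h

theorem per_of_pit {f : S ≃. S} {k : ℕ} {s t : S} (hs : Per f s) (h : pit f k s = some t) :
    Per f t ∧ ∃ j, pit f j t = some s := by
  obtain ⟨K, hK, hs⟩ := hs
  refine ⟨⟨K, hK, ?_⟩, ?_⟩
  · have h1 : pit f (K + k) s = some t := pit_add_some hs h
    rw [add_comm, pit_add, h] at h1
    simpa using h1
  · have h1 : pit f (k * K) s = some s := pit_mul hs k
    have h2 : k ≤ k * K := Nat.le_mul_of_pos_right k hK
    have h3 : k * K = k + (k * K - k) := by omega
    rw [h3, pit_add, h] at h1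
    exact ⟨_, by simpa using h1⟩

theorem per_isSome {f : S ≃. S} {s : S} (hs : Per f s) : (f s).isSome := by
  obtain ⟨K, hK, hs⟩ := hs
  obtain ⟨K', rfl⟩ : ∃ K', K = K' + 1 := ⟨K - 1, by omega⟩
  rw [pit_succ] at hs
  cases h : f s with
  | none => simp [h] at hs
  | some t => simp

section fin

variable [Fintype S]

theorem mem_orb {f : S ≃. S} {s t : S} : t ∈ orb f s ↔ ∃ k, pit f k s = some t := by
  classical
  simp [orb]

theorem self_mem_orb (f : S ≃. S) (s : S) : s ∈ orb f s := mem_orb.2 ⟨0, rfl⟩

theorem orb_eq_of_mem {f : S ≃. S} {s t : S} (hs : Per f s) (h : t ∈ orb f s) :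
    Per f t ∧ orb f t = orb f s := by
  obtain ⟨k, hk⟩ := mem_orb.1 h
  obtain ⟨h1, j, hj⟩ := per_of_pit hs hk
  refine ⟨h1, ?_⟩
  ext u
  simp only [mem_orb]
  constructor
  · rintro ⟨m, hm⟩
    exact ⟨_, pit_add_some hk hm⟩
  · rintro ⟨m, hm⟩
    exact ⟨_, pit_add_some hj hm⟩

open Classical in
/-- the set of cycles -/
noncomputable def cycs (f : S ≃. S) : Finset (Finset S) := (univ.filter (Per f)).image (orb f)

theorem cyc_eq (f : S ≃. S) : cyc f = (cycs f).card := rfl

open Classical in
theorem filter_orb {f : S ≃. S} {O : Finset S} (hO : O ∈ cycs f) :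
    (univ.filter (Per f)).filter (fun a => orb f a = O) = O := by
  simp only [cycs, mem_image, mem_filter, mem_univ, true_and] at hO
  obtain ⟨s, hs, rfl⟩ := hO
  ext a
  simp only [mem_filter, mem_univ, true_and]
  constructor
  · rintro ⟨h1, h2⟩
    rw [← h2]
    exact self_mem_orb f a
  · intro h
    exact orb_eq_of_mem hs h

open Classical in
/-- sum over the cycles of a sum over the cycle = sum over the periodic points -/
theorem sum_cycs (f : S ≃. S) (w : S → ℕ) :
    ∑ O ∈ cycs f, ∑ a ∈ O, w a = ∑ a ∈ univ.filter (Per f), w a := by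
  rw [← Finset.sum_fiberwise_of_maps_to (s := univ.filter (Per f)) (t := cycs f) (g := orb f)]
  · refine Finset.sum_congr rfl fun O hO => ?_
    rw [filter_orb hO]
  · intro a ha
    exact Finset.mem_image_of_mem _ ha

open Classical in
/-- general counting lemma: `B` a set of bad elements in the domain -/
theorem cyc_bound (f : S ≃. S) (B : Finset S) (hB : ∀ s ∈ B, (f s).isSome) (α β γ : ℕ)
    (e : Finset S → ℕ) (hβ : β ≤ α)
    (h : ∀ s, Per f s → γ + β * (B ∩ orb f s).card ≤ α * (orb f s).card + e (orb f s)) :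
    γ * cyc f + β * B.card ≤ α * domc f + ∑ O ∈ cycs f, e O := by
  have h1 : γ * cyc f + β * ∑ O ∈ cycs f, (B ∩ O).card
      ≤ α * ∑ O ∈ cycs f, O.card + ∑ O ∈ cycs f, e O := by
    rw [cyc_eq, Finset.card_eq_sum_ones, Finset.mul_sum, Finset.mul_sum, Finset.mul_sum,
      ← Finset.sum_add_distrib, ← Finset.sum_add_distrib]
    refine Finset.sum_le_sum fun O hO => ?_
    simp only [cycs, mem_image, mem_filter, mem_univ, true_and] at hO
    obtain ⟨s, hs, rfl⟩ := hO
    simpa using h s hs
  have h2 : ∑ O ∈ cycs f, O.card = (univ.filter (Per f)).card := by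
    have := sum_cycs f (fun _ => 1)
    simpa using this
  have h3 : ∑ O ∈ cycs f, (B ∩ O).card = (B ∩ univ.filter (Per f)).card := by
    have := sum_cycs f (fun a => if a ∈ B then 1 else 0)
    simp only [Finset.sum_ite_mem, Finset.sum_const, smul_eq_mul, mul_one] at this
    rw [Finset.inter_comm B]
    rw [← this]
    refine Finset.sum_congr rfl fun O _ => ?_
    rw [Finset.inter_comm]
  rw [h2, h3] at h1
  have h4 : (B \ univ.filter (Per f)).card + (univ.filter (Per f)).card ≤ domc f := by
    rw [← Finset.card_union_of_disjoint (Finset.sdiff_disjoint)]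
    refine Finset.card_le_card ?_
    intro s hs
    simp only [mem_union, mem_sdiff, mem_filter, mem_univ, true_and] at hs ⊢
    rcases hs with hs | hs
    · exact hB s hs.1
    · exact per_isSome hs
  have h5 : B.card = (B ∩ univ.filter (Per f)).card + (B \ univ.filter (Per f)).card :=
    (Finset.card_inter_add_card_sdiff _ _).symm
  have h6 : β * (B \ univ.filter (Per f)).card ≤ α * (B \ univ.filter (Per f)).card :=
    Nat.mul_le_mul_right _ hβ
  calc γ * cyc f + β * B.card
      = γ * cyc f + β * (B ∩ univ.filter (Per f)).card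
        + β * (B \ univ.filter (Per f)).card := by rw [h5]; ring
    _ ≤ α * (univ.filter (Per f)).card + ∑ O ∈ cycs f, e O
        + α * (B \ univ.filter (Per f)).card := by
          exact Nat.add_le_add h1 h6
    _ = α * ((B \ univ.filter (Per f)).card + (univ.filter (Per f)).card)
        + ∑ O ∈ cycs f, e O := by ring
    _ ≤ _ := by
          exact Nat.add_le_add_right (Nat.mul_le_mul_left _ h4) _

theorem domc_le (f : S ≃. S) : domc f ≤ Fintype.card S := by
  classical
  exact (Finset.card_le_univ _)

end fin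

end Vale.Agent.P201.Z.LA422
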