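import Vale.Agent.P201.Z.LA.Cyc

/-!
P201, part LA: reduced walks and girth.
-/

namespace Vale.Agent.P201.Z

open Finset

variable {p : Pat} {n : ℕ} {σ : Equiv.Perm (Cel p n)}

/-- reduced walk from the block `u` to the block `v`, given by its leaving ports -/
def RW (σ : Equiv.Perm (Cel p n)) : Blk p n → List (Port p n) → Blk p n → Prop
  | u, [], v => u = v
  | u, a :: l, v => blk a.1 = u ∧ (∀ b ∈ l.head?, b ≠ mt σ a) ∧ RW σ (blk (mt σ a).1) l v

theorem RW.nil_iff {u v : Blk p n} : RW σ u [] v ↔ u = v := Iff.rfl

theorem RW.cons_iff {u v : Blk p n} {a : Port p n} {l : List (Port p n)} :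
    RW σ u (a :: l) v ↔
      blk a.1 = u ∧ (∀ b ∈ l.head?, b ≠ mt σ a) ∧ RW σ (blk (mt σ a).1) l v := Iff.rfl

theorem RW.head {u v : Blk p n} {l : List (Port p n)} (h : RW σ u l v) :
    ∀ a ∈ l.head?, blk a.1 = u := by
  cases l with
  | nil => intro a ha; simp at ha
  | cons b l =>
    intro a ha
    simp only [List.head?_cons, Option.mem_def, Option.some.injEq] at ha
    subst ha
    exact h.1

theorem RW.isWalk {u v : Blk p n} {l : List (Port p n)} (h : RW σ u l v) : IsWalk σ l := by
  induction l generalizing u with
  | nil => exact List.isChain_nil
  | cons a l ih =>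
    unfold IsWalk
    rw [List.isChain_cons]
    refine ⟨fun b hb => ⟨?_, h.2.1 b hb⟩, ih h.2.2⟩
    exact (h.2.2.head b hb).symm

theorem RW.last {u v : Blk p n} {l : List (Port p n)} (h : RW σ u l v) :
    ∀ a ∈ l.getLast?, blk (mt σ a).1 = v := by
  induction l generalizing u with
  | nil => intro a ha; simp at ha
  | cons b l ih =>
    intro a ha
    cases l with
    | nil =>
      simp only [List.getLast?_singleton, Option.mem_def, Option.some.injEq] at ha
      subst ha
      exact h.2.2
    | cons c l =>
      rw [List.getLast?_cons_cons] at ha
      exact ih h.2.2 a ha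

theorem RW.append {u v w : Blk p n} {l l' : List (Port p n)} (h : RW σ u l v) (h' : RW σ v l' w)
    (hj : ∀ a ∈ l.getLast?, ∀ b ∈ l'.head?, b ≠ mt σ a) : RW σ u (l ++ l') w := by
  induction l generalizing u with
  | nil =>
    have : u = v := h
    subst this
    exact h'
  | cons a l ih =>
    rw [List.cons_append, RW.cons_iff]
    refine ⟨h.1, ?_, ?_⟩
    · intro b hb
      cases l with
      | nil =>
        exact hj a (by simp) b hb
      | cons c l =>
        exact h.2.1 b (by simpa using hb)
    · refine ih h.2.2 ?_
      intro c hc b hb
      cases l with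
      | nil => simp at hc
      | cons d l => exact hj c (by rw [List.getLast?_cons_cons]; exact hc) b hb

theorem RW.split {u w : Blk p n} {l l' : List (Port p n)} (h : RW σ u (l ++ l') w) :
    ∃ v, RW σ u l v ∧ RW σ v l' w ∧ ∀ a ∈ l.getLast?, ∀ b ∈ l'.head?, b ≠ mt σ a := by
  induction l generalizing u with
  | nil => exact ⟨u, rfl, h, fun a ha => by simp at ha⟩
  | cons a l ih =>
    rw [List.cons_append, RW.cons_iff] at h
    obtain ⟨h1, h2, h3⟩ := h
    obtain ⟨v, k1, k2, k3⟩ := ih h3
    refine ⟨v, ⟨h1, ?_, k1⟩, k2, ?_⟩
    · intro b hb
      refine h2 b ?_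
      cases l with
      | nil => simp at hb
      | cons c l => simpa using hb
    · intro c hc b hb
      cases l with
      | nil =>
        simp only [List.getLast?_singleton, Option.mem_def, Option.some.injEq] at hc
        subst hc
        exact h2 b (by simpa using hb)
      | cons d l =>
        rw [List.getLast?_cons_cons] at hc
        exact k3 c hc b hb

theorem RW.single (a : Port p n) : RW σ (blk a.1) [a] (blk (mt σ a).1) :=
  ⟨rfl, fun b hb => by simp at hb, rfl⟩

/-- reversed walk -/
noncomputable def rvw (σ : Equiv.Perm (Cel p n)) (l : List (Port p n)) : List (Port p n) :=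
  (l.map (mt σ)).reverse

theorem rvw_cons (a : Port p n) (l : List (Port p n)) : rvw σ (a :: l) = rvw σ l ++ [mt σ a] := by
  simp [rvw]

theorem rvw_length (l : List (Port p n)) : (rvw σ l).length = l.length := by simp [rvw]

theorem rvw_getLast (l : List (Port p n)) : (rvw σ l).getLast? = l.head?.map (mt σ) := by
  unfold rvw
  rw [List.getLast?_reverse, List.head?_map]

theorem RW.reverse {u v : Blk p n} {l : List (Port p n)} (h : RW σ u l v) :
    RW σ v (rvw σ l) u := by
  induction l generalizing u with
  | nil => exact Eq.symm h
  | cons a l ih =>
    rw [rvw_cons]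
    refine (ih h.2.2).append (v := blk (mt σ a).1) ?_ ?_
    · have := RW.single (σ := σ) (mt σ a)
      rw [mt_mt, h.1] at this
      exact this
    · intro c hc b hb
      simp only [List.head?_cons, Option.mem_def, Option.some.injEq] at hb
      subst hb
      rw [rvw_getLast, Option.mem_def, Option.map_eq_some_iff] at hc
      obtain ⟨d, hd, rfl⟩ := hc
      rw [mt_mt]
      exact Ne.symm (h.2.1 d hd)

theorem RW.of_isWalk {l : List (Port p n)} (h : IsWalk σ l) {a : Port p n} (ha : a ∈ l.head?)
    {b : Port p n} (hb : b ∈ l.getLast?) : RW σ (blk a.1) l (blk (mt σ b).1) := by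
  induction l generalizing a with
  | nil => simp at ha
  | cons c l ih =>
    simp only [List.head?_cons, Option.mem_def, Option.some.injEq] at ha
    subst ha
    unfold IsWalk at h
    rw [List.isChain_cons] at h
    refine ⟨rfl, fun b hb => (h.1 b hb).2, ?_⟩
    cases l with
    | nil =>
      simp only [List.getLast?_singleton, Option.mem_def, Option.some.injEq] at hb
      subst hb
      rfl
    | cons d l =>
      rw [List.getLast?_cons_cons] at hb
      rw [(h.1 d (by simp)).1]
      exact ih h.2 (by simp) hb

/-- GL0: a nonempty reduced walk which returns to its block is long -/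
theorem gl0 {g : ℕ} (hg : Girth σ g) :
    ∀ (m : ℕ) (u : Blk p n) (l : List (Port p n)), l.length = m → RW σ u l u → l ≠ [] →
      g ≤ l.length := by
  intro m
  induction m using Nat.strong_induction_on with
  | _ m ih =>
    intro u l hm h hl
    by_contra hlt
    -- not cyclically reduced
    have hnc : ¬ IsCWalk σ l := fun hc => hlt (hg l hl hc)
    obtain ⟨a, l1, rfl⟩ : ∃ a l1, l = a :: l1 := by
      cases l with
      | nil => exact absurd rfl hl
      | cons a l1 => exact ⟨a, l1, rfl⟩
    rcases List.eq_nil_or_concat l1 with rfl | ⟨l2, b, rfl⟩
    · -- length one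
      apply hnc
      refine ⟨h.isWalk, ?_⟩
      intro c hc d hd
      simp only [List.getLast?_singleton, List.head?_cons, Option.mem_def,
        Option.some.injEq] at hc hd
      subst hc hd
      exact ⟨by rw [h.last a (by simp), h.1], (mt_ne σ a).symm⟩
    · by_cases hab : a = mt σ b
      · -- strip both ends
        obtain ⟨h1, h2, h3⟩ := h
        rw [List.concat_eq_append] at h2 h3 hm hlt
        obtain ⟨v, k1, k2, k3⟩ := h3.split
        cases l2 with
        | nil =>
          simp only [List.nil_append, List.head?_cons, Option.mem_def, Option.some.injEq,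
            forall_eq'] at h2
          apply h2
          rw [hab, mt_mt]
        | cons c l3 =>
          have hv : v = blk (mt σ a).1 := by
            have h4 := k2.1
            rw [hab, mt_mt, h4]
          rw [hv] at k1
          have h5 := ih (c :: l3).length (by
            rw [← hm]; simp only [List.length_cons, List.length_append]; omega)
            _ _ rfl k1 (by simp)
          apply hlt
          simp only [List.length_cons, List.length_append] at h5 ⊢
          omega
      · apply hnc
        refine ⟨h.isWalk, ?_⟩
        intro c hc d hd
        have hlast : (a :: l2.concat b).getLast? = some b := by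
          rw [List.concat_eq_append, ← List.cons_append, List.getLast?_append]
          simp
        rw [hlast] at hc
        simp only [List.head?_cons, Option.mem_def, Option.some.injEq] at hc hd
        subst hc hd
        exact ⟨by rw [h.last b hlast, h.1], hab⟩

/-- GL0 -/
theorem RW.girth {g : ℕ} (hg : Girth σ g) {u : Blk p n} {l : List (Port p n)} (h : RW σ u l u)
    (hl : l ≠ []) : g ≤ l.length := gl0 hg l.length u l rfl h hl

/-- GL: two short reduced walks with the same ends are equal -/
theorem RW.unique {g : ℕ} (hg : Girth σ g) {u v : Blk p n} {l l' : List (Port p n)}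
    (h : RW σ u l v) (h' : RW σ u l' v) (hlt : l.length + l'.length < g) : l = l' := by
  induction l generalizing u l' with
  | nil =>
    have : u = v := h
    subst this
    by_contra hne
    have := h'.girth hg (Ne.symm hne)
    simp only [List.length_nil] at hlt
    omega
  | cons a l ih =>
    cases l' with
    | nil =>
      exfalso
      have : u = v := h'
      subst this
      have := h.girth hg (by simp)
      omega
    | cons b l' =>
      by_cases hab : a = b
      · subst hab
        rw [ih h.2.2 h'.2.2 (by simp only [List.length_cons] at hlt; omega)]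
      · exfalso
        have h1 := h'.reverse.append h (by
          intro c hc d hd
          rw [rvw_getLast] at hc
          simp only [List.head?_cons, Option.map_some, Option.mem_def, Option.some.injEq] at hc hd
          subst hc hd
          rw [mt_mt]
          exact hab)
        have h2 := h1.girth hg (by simp)
        rw [List.length_append, rvw_length] at h2
        omega

end Vale.Agent.P201.Z
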