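import Vale.Agent.P201.Z.LA.Skel
import Vale.Agent.P201.Z.LA.Loc
import Vale.Agent.P201.Z.LA.Win
import Vale.Agent.P201.Z.LA.Fan

/-!
P201, part LA: assembly of `StmtLA` from the blocks of `Skel.lean` (helper26).
-/

namespace Vale.Agent.P201.Z

open Finset

variable {p : Pat} {n : ℕ} {σ : Equiv.Perm (Cel p n)}

namespace LAMain

/-- a total partial injection of a finite type is periodic -/
theorem per_of_total {S : Type} [Fintype S] [DecidableEq S] (f : S ≃. S)
    (h : Fintype.card S = domc f) (s : S) : Per f s := by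
  classical
  have hsrc : src f = ∅ := by
    rw [← Finset.card_eq_zero, card_src, h, Nat.sub_self]
  have hb : ∀ m, ∃ t, pit f m t = some s := by
    intro m
    rcases back_or_src f s m with h1 | ⟨k, t, -, -, h2⟩
    · exact h1
    · rw [hsrc] at h2
      simp at h2
  choose t ht using hb
  obtain ⟨a, b, hab, heq⟩ := Finite.exists_ne_map_eq_of_infinite t
  wlog hlt : a < b generalizing a b
  · exact this b a (Ne.symm hab) heq.symm (by omega)
  refine ⟨b - a, by omega, ?_⟩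
  have h1 := ht b
  rw [show b = a + (b - a) by omega, pit_add] at h1
  rw [show a + (b - a) = b by omega, ← heq, ht a, Option.bind_some] at h1
  exact h1

theorem big (G : Glue σ) (hR : G.Red) {g : ℕ} (hg : Girth σ g)
    (h : Fintype.card G.S = domc G.Y) : Fintype.card G.S = 0 ∨ g ≤ Fintype.card G.S := by
  rcases Nat.eq_zero_or_pos (Fintype.card G.S) with h0 | h0
  · exact Or.inl h0
  · right
    obtain ⟨s⟩ := Fintype.card_pos_iff.1 h0
    exact (Glue.girth_orb hR hg (per_of_total G.Y h s)).trans (card_le_univ _)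

/-- size of the family -/
theorem log_card (M B1 B2 k : ℕ) (h : k ≤ (M + 1) * (M + 2) ^ B1 * B2 + 1) (hk : 0 < k) :
    Real.log k ≤ (B1 + 1 + B2) * (Real.log (M + 2) + 1) := by
  have hM : (0 : ℝ) ≤ Real.log (M + 2) := Real.log_nonneg (by
    have : (0 : ℝ) ≤ M := Nat.cast_nonneg M
    linarith)
  have h1 : k ≤ (M + 2) ^ (B1 + 1) * (B2 + 1) := by
    have h2 : 1 ≤ (M + 2) ^ B1 := Nat.one_le_pow _ _ (by omega)
    have h3 : (M + 1) * (M + 2) ^ B1 * B2 ≤ (M + 2) ^ (B1 + 1) * B2 := by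
      rw [pow_succ']
      gcongr
      omega
    have h4 : 1 ≤ (M + 2) ^ (B1 + 1) := Nat.one_le_pow _ _ (by omega)
    calc k ≤ (M + 1) * (M + 2) ^ B1 * B2 + 1 := h
      _ ≤ (M + 2) ^ (B1 + 1) * B2 + (M + 2) ^ (B1 + 1) := by omega
      _ = _ := by ring
  have h5 : Real.log k ≤ Real.log (((M + 2) ^ (B1 + 1) * (B2 + 1) : ℕ) : ℝ) := by
    apply Real.log_le_log
    · exact_mod_cast hk
    · exact_mod_cast h1
  have h6 : Real.log (((M + 2) ^ (B1 + 1) * (B2 + 1) : ℕ) : ℝ) =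
      (B1 + 1) * Real.log (M + 2) + Real.log (B2 + 1) := by
    push_cast
    rw [Real.log_mul (by positivity) (by positivity), Real.log_pow]
    push_cast
    ring
  have h7 : Real.log ((B2 : ℝ) + 1) ≤ B2 := by
    have := Real.log_le_sub_one_of_pos (show (0 : ℝ) < (B2 : ℝ) + 1 by positivity)
    linarith
  have hB1 : (0 : ℝ) ≤ B1 := Nat.cast_nonneg _
  have hB2 : (0 : ℝ) ≤ B2 := Nat.cast_nonneg _
  nlinarith

end LAMain

open LAMain in
/-- **`StmtLA` from the blocks** -/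
theorem stmtLA_of (hRho : StmtRho) (hRec : StmtRcd) (hCode : StmtCode) (hCnt : StmtCnt)
    (hLev : StmtLev) (hNum : StmtNum) : StmtLA := by
  classical
  intro p hp c hc C1 hC1
  have hL0 : 0 ≤ Real.log (p.Ttot : ℝ) := Real.log_natCast_nonneg _
  obtain ⟨e1, he1, hNum⟩ := hNum _ hL0
  refine ⟨e1, he1, fun K => ?_⟩
  obtain ⟨A, hA1, hA2⟩ : ∃ A : ℕ, (K : ℝ) / c ≤ A ∧ e1 * K ≤ A :=
    ⟨max ⌈(K : ℝ) / c⌉₊ ⌈e1 * K⌉₊, by
      push_cast
      exact (Nat.le_ceil _).trans (le_max_left _ _), by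
      push_cast
      exact (Nat.le_ceil _).trans (le_max_right _ _)⟩
  obtain ⟨B1, hCode⟩ := hCode A
  obtain ⟨B2, hCnt⟩ := hCnt A
  have hB1 : (0 : ℝ) ≤ B1 := Nat.cast_nonneg _
  have hB2 : (0 : ℝ) ≤ B2 := Nat.cast_nonneg _
  obtain ⟨D, hDdef⟩ : ∃ D : ℝ, D = (4 * (B2 : ℝ) ^ 2 + 4 * B2) *
      (1 + C1 + (B1 + 1 + B2) + Real.log p.Ttot) := ⟨_, rfl⟩
  have hD : 0 ≤ D := by rw [hDdef]; positivity
  obtain ⟨Y0, hNum⟩ := hNum c D K hc hD
  refine ⟨max 1 ⌈Real.exp (max (Y0 : ℝ) (3 / c))⌉₊, ?_⟩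
  intro n hn Y g hY1 hY2 hg hsize
  have hn1 : 1 ≤ n := (le_max_left _ _).trans hn
  have hn2 : Real.exp (max (Y0 : ℝ) (3 / c)) ≤ n :=
    (Nat.le_ceil _).trans (by exact_mod_cast (le_max_right _ _).trans hn)
  have hcard := card_cel p n
  have hTpos : 0 < p.Ttot := hp.pos
  have hNpos : 0 < Fintype.card (Cel p n) := by
    rw [hcard]; exact Nat.mul_pos hn1 hTpos
  have hlogN : Real.log n ≤ Real.log (Fintype.card (Cel p n)) := by
    apply Real.log_le_log
    · exact_mod_cast hn1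
    · rw [hcard]
      exact_mod_cast Nat.le_mul_of_pos_right _ hTpos
  have hYbig : max (Y0 : ℝ) (3 / c) ≤ Y := by
    refine le_trans ?_ hY1
    refine le_trans ?_ hlogN
    rw [Real.le_log_iff_exp_le (by exact_mod_cast hn1)]
    exact hn2
  have hYY0 : Y0 ≤ Y := by exact_mod_cast (le_max_left _ _).trans hYbig
  have hg3 : 3 ≤ g := by
    have h1 : 3 / c ≤ Y := (le_max_right _ _).trans hYbig
    have h2 : (3 : ℝ) ≤ c * Y := by
      rw [div_le_iff₀ hc] at h1
      linarith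
    exact_mod_cast h2.trans hg
  have hKY : K * Y ≤ A * g := by
    have h1 : (K : ℝ) ≤ A * c := by rwa [div_le_iff₀ hc] at hA1
    have h2 : (K : ℝ) * Y ≤ A * g := by
      calc (K : ℝ) * Y ≤ A * c * Y := mul_le_mul_of_nonneg_right h1 (Nat.cast_nonneg _)
        _ = A * (c * Y) := by ring
        _ ≤ A * g := mul_le_mul_of_nonneg_left hg (Nat.cast_nonneg _)
    exact_mod_cast h2
  -- the codes
  have hC : ∀ F : Fin (K * Y + 1), ∃ CC : Set (Cmb F),
      CC.Finite ∧ CC.ncard ≤ (F.1 + 2) ^ B1 ∧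
      ∀ (σ : Equiv.Perm (Cel p n)), Girth σ g → ∀ G : Glue σ, G.Red → G.Lab → G.Eul →
        Fintype.card G.S = F → F ≤ domc G.Y + A → ∃ e : G.S ≃ Fin F, ∃ c ∈ CC, IsCmb G e c :=
    fun F => hCode p n F g hg3 ((Nat.lt_succ_iff.1 F.2).trans hKY)
  choose CC hfin hcc1 hcc2 using hC
  -- the patterns
  have hP : ∀ (F : ℕ) (c : Cmb F) (t : ℕ), ∃ P : Ptn, Fintype.card P.E ≤ F ∧
    ∀ (σ : Equiv.Perm (Cel p n)) (G : Glue σ) (e : G.S ≃ Fin F), G.Red → IsCmb G e c →
      ∀ C1 K0 : ℝ, (∀ r : Rlz P σ, UIneq r C1 K0) → G.LevU C1 K0 (t + 1) :=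
    fun F c t => hRec p n F c (t + 1) (by omega)
  choose PP hPE hPP using hP
  have : ∀ F, Fintype (CC F) := fun F => (hfin F).fintype
  let ι : Type := Option (Σ F : Fin (K * Y + 1), (CC F) × Fin B2)
  let PF : ι → Ptn := fun i => match i with
    | none => PP 0 ⟨fun _ _ => True, fun _ _ => True, fun _ _ => True, fun _ _ => True⟩ 0
    | some x => PP x.1 x.2.1.1 x.2.2.1
  refine ⟨ι, inferInstance, inferInstance, PF, ?_, ?_⟩
  · intro i
    match i with
    | none => exact (hPE _ _ _).trans (Nat.zero_le _)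
    | some x => exact (hPE _ _ _).trans (Nat.lt_succ_iff.1 x.1.2)
  intro σ hσ hUI G hR hL hE hF
  have hX := domc_le_card G.X
  have hY := domc_le_card G.Y
  by_cases hop : Fintype.card G.S ≤ domc G.Y + A
  swap
  · -- trivial case
    have h1 : (A : ℝ) ≤ (Fintype.card G.S : ℝ) - domc G.Y := by
      have : domc G.Y + A ≤ Fintype.card G.S := by omega
      have h2 : ((domc G.Y + A : ℕ) : ℝ) ≤ (Fintype.card G.S : ℕ) := by exact_mod_cast this
      push_cast at h2
      linarith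
    have h2 : (0 : ℝ) ≤ (Fintype.card G.S : ℝ) - domc G.X := by
      have : (domc G.X : ℝ) ≤ (Fintype.card G.S : ℕ) := by exact_mod_cast hX
      linarith
    have h3 : (Fintype.card G.S : ℝ) ≤ K * Y := by exact_mod_cast hF
    have hYn : (0 : ℝ) ≤ Y := Nat.cast_nonneg _
    calc e1 * (Fintype.card G.S : ℝ) ≤ e1 * (K * Y) := mul_le_mul_of_nonneg_left h3 he1.le
      _ = e1 * K * Y := by ring
      _ ≤ A * Y := mul_le_mul_of_nonneg_right hA2 hYn
      _ = Y * A := mul_comm _ _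
      _ ≤ Y * ((Fintype.card G.S : ℝ) - domc G.Y) := mul_le_mul_of_nonneg_left h1 hYn
      _ ≤ _ := by linarith
  -- main case
  have hBnd := hCnt p n g hg3 σ hσ G hR hL hE (hF.trans hKY) hop
  have hK0 : (0 : ℝ) ≤ Real.log (Fintype.card ι) := Real.log_natCast_nonneg _
  have hlev : ∀ t, 1 ≤ t → t ≤ B2 → G.LevU C1 (Real.log (Fintype.card ι)) t := by
    intro t ht1 ht2
    obtain ⟨e, c', hc', hIs⟩ := hcc2 ⟨Fintype.card G.S, by omega⟩ σ hσ G hR hL hE rfl hop
    have h := hPP (Fintype.card G.S) c' (t - 1) σ G e hR hIs C1 (Real.log (Fintype.card ι))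
      (fun r => hUI (some ⟨⟨Fintype.card G.S, by omega⟩, ⟨c', hc'⟩, ⟨t - 1, by omega⟩⟩) r)
    rwa [show t - 1 + 1 = t by omega] at h
  have hfinal := hLev p n σ G hR (hRho p hp n hn1) hNpos B2 C1 _ hC1 hK0 hBnd hlev
  -- size of the family
  have hcardι : Fintype.card ι ≤ (K * Y + 1) * (K * Y + 2) ^ B1 * B2 + 1 := by
    have h1 : Fintype.card ι = (∑ F : Fin (K * Y + 1), Fintype.card (CC F) * B2) + 1 := by
      simp only [ι, Fintype.card_option, Fintype.card_sigma, Fintype.card_prod, Fintype.card_fin]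
    rw [h1]
    have h2 : ∀ F : Fin (K * Y + 1), Fintype.card (CC F) * B2 ≤ (K * Y + 2) ^ B1 * B2 := by
      intro F
      have h3 : Fintype.card (CC F) = (CC F).ncard := by
        rw [← Nat.card_coe_set_eq, Nat.card_eq_fintype_card]
      rw [h3]
      refine Nat.mul_le_mul_right _ ((hcc1 F).trans ?_)
      exact Nat.pow_le_pow_left (by have := F.2; omega) _
    have h4 := Finset.sum_le_sum fun F (_ : F ∈ (univ : Finset (Fin (K * Y + 1)))) => h2 F
    rw [sum_const, card_univ, Fintype.card_fin, smul_eq_mul] at h4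
    rw [mul_assoc]
    omega
  have hlogι := log_card (K * Y) B1 B2 _ hcardι Fintype.card_pos
  push_cast at hlogι
  have hlogM : (0 : ℝ) ≤ Real.log (K * Y + 2) := Real.log_nonneg (by
    have : (0 : ℝ) ≤ (K : ℝ) * Y := by positivity
    linarith)
  -- numerics
  have hnum := hNum Y g (Fintype.card G.S) (Fintype.card G.S - domc G.Y)
    (Fintype.card G.S - domc G.X) hYY0 hg hF
    (fun h0 => big G hR hσ (by omega)) ?_
  · rw [Nat.cast_sub hX, Nat.cast_sub hY] at hnum
    exact hnum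
  · rw [Nat.cast_sub hX, Nat.cast_sub hY]
    refine hfinal.trans ?_
    have h1 : ((Fintype.card G.S : ℝ) - domc G.Y) * Real.log (Fintype.card (Cel p n)) ≤
        ((Fintype.card G.S : ℝ) - domc G.Y) * Y := by
      apply mul_le_mul_of_nonneg_left hY1
      have : (domc G.Y : ℝ) ≤ (Fintype.card G.S : ℕ) := by exact_mod_cast hY
      linarith
    have h2 : (4 * (B2 : ℝ) ^ 2 + 4 * B2) *
        (1 + C1 + Real.log (Fintype.card ι) + Real.log p.Ttot) ≤
        D * (Real.log (K * Y + 2) + 1) := by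
      rw [hDdef, mul_assoc]
      apply mul_le_mul_of_nonneg_left _ (by positivity)
      nlinarith
    linarith

end Vale.Agent.P201.Z
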