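import Vale.Agent.P201.Z.LA.Cyc

/-!
P201, part LA: numbering of a finite set such that a partial injection is the successor map up to few
exceptions (helper167).
-/

namespace Vale.Agent.P201.Z.Numb

open Finset

variable {S : Type} (f : S ≃. S)

/-- decomposition in runs -/
structure Rns (LL : List (List S)) : Prop where
  ne : ∀ r ∈ LL, r ≠ []
  ch : ∀ r ∈ LL, r.IsChain (fun a b => f a = some b)
  nd : LL.flatten.Nodup
  all : ∀ s, s ∈ LL.flatten

variable {f}

theorem Rns.uniq {LL : List (List S)} (h : Rns f LL) {r r' : List S} (hr : r ∈ LL) (hr' : r' ∈ LL)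
    {s : S} (hs : s ∈ r) (hs' : s ∈ r') : r = r' := by
  by_contra hne
  have h1 := (List.nodup_flatten.1 h.nd).2
  have : Std.Symm (List.Disjoint (α := S)) := ⟨fun _ _ hd => List.Disjoint.symm hd⟩
  exact (List.Pairwise.forall h1 hr hr' hne) hs hs'

theorem Rns.rnd {LL : List (List S)} (h : Rns f LL) {r : List S} (hr : r ∈ LL) : r.Nodup :=
  (List.nodup_flatten.1 h.nd).1 r hr

theorem Rns.nodup {LL : List (List S)} (h : Rns f LL) : LL.Nodup := by
  have h1 := (List.nodup_flatten.1 h.nd).2
  refine List.Pairwise.imp_of_mem ?_ h1
  intro a b ha _ hd hab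
  subst hab
  obtain ⟨x, hx⟩ := List.exists_mem_of_ne_nil a (h.ne a ha)
  exact hd hx hx

theorem Rns.mem {LL : List (List S)} (h : Rns f LL) (s : S) : ∃ r ∈ LL, s ∈ r := by
  have := h.all s
  rwa [List.mem_flatten] at this

/-- merging two runs -/
theorem Rns.merge {LL : List (List S)} (h : Rns f LL) {r1 r2 : List S} (h1 : r1 ∈ LL)
    (h2 : r2 ∈ LL) (hne : r1 ≠ r2) {a b : S} (ha : r1.getLast? = some a) (hb : r2.head? = some b)
    (hab : f a = some b) : ∃ LL', Rns f LL' ∧ LL'.length < LL.length := by
  classical
  have h2' : r2 ∈ LL.erase r1 := (List.mem_erase_of_ne (Ne.symm hne)).2 h2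
  have hp : LL.Perm (r1 :: r2 :: (LL.erase r1).erase r2) :=
    (List.perm_cons_erase h1).trans ((List.perm_cons_erase h2').cons r1)
  have hpf : LL.flatten.Perm ((r1 ++ r2) :: (LL.erase r1).erase r2).flatten := by
    refine hp.flatten.trans ?_
    simp
  refine ⟨(r1 ++ r2) :: (LL.erase r1).erase r2, ⟨?_, ?_, ?_, ?_⟩, ?_⟩
  · intro r hr
    rcases List.mem_cons.1 hr with rfl | hr
    · have := h.ne r1 h1
      simp [this]
    · exact h.ne r (hp.mem_iff.2 (List.mem_cons_of_mem _ (List.mem_cons_of_mem _ hr)))
  · intro r hr
    rcases List.mem_cons.1 hr with rfl | hr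
    · refine (h.ch r1 h1).append (h.ch r2 h2) ?_
      intro x hx y hy
      rw [ha, Option.mem_def, Option.some.injEq] at hx
      rw [hb, Option.mem_def, Option.some.injEq] at hy
      subst hx hy
      exact hab
    · exact h.ch r (hp.mem_iff.2 (List.mem_cons_of_mem _ (List.mem_cons_of_mem _ hr)))
  · exact (hpf.nodup_iff).1 h.nd
  · intro s
    exact hpf.mem_iff.1 (h.all s)
  · have := hp.length_eq
    rw [this]
    simp

theorem exists_rns [Fintype S] : ∃ LL, Rns f LL := by
  classical
  refine ⟨(univ : Finset S).toList.map (fun s => [s]), ⟨?_, ?_, ?_, ?_⟩⟩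
  · intro r hr
    obtain ⟨s, _, rfl⟩ := List.mem_map.1 hr
    simp
  · intro r hr
    obtain ⟨s, _, rfl⟩ := List.mem_map.1 hr
    simp
  · have : ((univ : Finset S).toList.map (fun s => [s])).flatten = (univ : Finset S).toList := by
      induction (univ : Finset S).toList with
      | nil => rfl
      | cons a l ih => simp [ih]
    rw [this]
    exact Finset.nodup_toList _
  · intro s
    rw [List.mem_flatten]
    exact ⟨[s], List.mem_map.2 ⟨s, by simp, rfl⟩, by simp⟩

/-- the last element of a run of a minimal decomposition -/
theorem last_closed {LL : List (List S)} (h : Rns f LL)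
    (hmin : ∀ LL', Rns f LL' → LL.length ≤ LL'.length) {r : List S} (hr : r ∈ LL) {b t : S}
    (hb : r.getLast? = some b) (ht : f b = some t) : r.head? = some t := by
  obtain ⟨r', hr', htr⟩ := h.mem t
  obtain ⟨u, v, rfl⟩ := List.append_of_mem htr
  rcases List.eq_nil_or_concat u with rfl | ⟨u', a, rfl⟩
  · -- t is the head of r'
    rw [List.nil_append] at hr' htr
    by_cases hrr : r = t :: v
    · rw [hrr]; rfl
    · exfalso
      obtain ⟨LL', h1, h2⟩ := h.merge hr hr' hrr hb rfl ht
      have := hmin LL' h1
      omega
  · exfalso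
    have hch := h.ch _ hr'
    rw [List.concat_eq_append, List.append_assoc, List.singleton_append] at hch hr' htr
    have hat : f a = some t := by
      have := (List.isChain_append.1 hch).2.1
      rw [List.isChain_cons] at this
      exact this.1 t (by simp)
    have hab : a = b := f.inj (Option.mem_def.2 hat) (Option.mem_def.2 ht)
    subst hab
    have har : a ∈ r := List.mem_of_getLast? hb
    have := h.uniq hr hr' har (by simp)
    rw [this] at hb
    have hnd := h.rnd hr'
    have hb' : (t :: v).getLast? = some a := by
      rw [List.getLast?_append, List.getLast?_cons_cons] at hb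
      cases hv : (t :: v).getLast? with
      | none => simp at hv
      | some x =>
        rw [hv] at hb
        simpa using hb
    have hmem : a ∈ t :: v := List.mem_of_getLast? hb'
    rw [List.nodup_append] at hnd
    have := hnd.2.1
    rw [List.nodup_cons] at this
    exact this.1 hmem

theorem run_pit {r : List S} {a : S} (hch : (a :: r).IsChain (fun a b => f a = some b)) {c : S}
    (hc : (a :: r).getLast? = some c) : pit f r.length a = some c := by
  induction r generalizing a with
  | nil =>
    simp only [List.getLast?_singleton, Option.some.injEq] at hc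
    subst hc
    rfl
  | cons b r ih =>
    rw [List.getLast?_cons_cons] at hc
    rw [List.isChain_cons] at hch
    have hab := hch.1 b (by simp)
    rw [List.length_cons, pit_succ, hab]
    exact ih hch.2 hc

theorem run_closed {r : List S} (hch : r.IsChain (fun a b => f a = some b)) {h0 l0 : S}
    (hh : r.head? = some h0) (hl : r.getLast? = some l0) (hcl : f l0 = some h0) {s t : S}
    (hs : s ∈ r) (ht : f s = some t) : t ∈ r := by
  obtain ⟨u, v, rfl⟩ := List.append_of_mem hs
  cases v with
  | nil =>
    rw [List.getLast?_append] at hl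
    simp only [List.getLast?_singleton, Option.some_or, Option.some.injEq] at hl
    subst hl
    rw [hcl, Option.some.injEq] at ht
    subst ht
    exact List.mem_of_head? hh
  | cons b v =>
    have h1 := (List.isChain_append.1 hch).2.1
    rw [List.isChain_cons] at h1
    have h2 := h1.1 b (by simp)
    rw [h2, Option.some.injEq] at ht
    subst ht
    simp

theorem orb_run [Fintype S] {r : List S} (hch : r.IsChain (fun a b => f a = some b)) {h0 l0 : S}
    (hh : r.head? = some h0) (hl : r.getLast? = some l0) (hcl : f l0 = some h0) {t : S}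
    (ht : t ∈ orb f h0) : t ∈ r := by
  obtain ⟨k, hk⟩ := mem_orb.1 ht
  induction k generalizing t with
  | zero =>
    rw [pit_zero, Option.some.injEq] at hk
    subst hk
    exact List.mem_of_head? hh
  | succ k ih =>
    rw [pit_succ', Option.bind_eq_some_iff] at hk
    obtain ⟨u, hu, hut⟩ := hk
    exact run_closed hch hh hl hcl (ih (mem_orb.2 ⟨k, hu⟩) hu) hut

theorem length_le [Fintype S] {LL : List (List S)} (h : Rns f LL)
    (hmin : ∀ LL', Rns f LL' → LL.length ≤ LL'.length) :
    LL.length ≤ (Fintype.card S - domc f) + cyc f := by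
  classical
  have hlast : ∀ r ∈ LL, ∃ b, r.getLast? = some b := by
    intro r hr
    have := h.ne r hr
    exact ⟨r.getLast this, List.getLast?_eq_getLast_of_ne_nil this⟩
  rw [← List.toFinset_card_of_nodup h.nodup]
  rw [← Finset.card_filter_add_card_filter_not (s := LL.toFinset)
    (fun r => ∃ b, r.getLast? = some b ∧ f b = none)]
  refine Nat.add_le_add ?_ ?_
  · have hc : Fintype.card S - domc f = (univ.filter (fun s => f s = none)).card := by
      unfold domc
      have h1 := Finset.card_filter_add_card_filter_not (s := (univ : Finset S))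
        (fun s => (f s).isSome)
      have h2 : (univ.filter (fun s => ¬ (f s).isSome = true)) = univ.filter (fun s => f s = none) := by
        ext s
        simp
      rw [h2] at h1
      rw [← Finset.card_univ, ← h1]
      simp
    rw [hc]
    have hc2 : ((univ.filter (fun s => f s = none)).image some).card ≤
        (univ.filter (fun s => f s = none)).card := Finset.card_image_le
    refine le_trans (Finset.card_le_card_of_injOn (fun r => r.getLast?) ?_ ?_) hc2
    · intro r hr
      rw [Finset.mem_coe, Finset.mem_filter] at hr
      obtain ⟨_, b, hb, hfb⟩ := hr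
      rw [Finset.mem_coe, Finset.mem_image]
      exact ⟨b, by simp [hfb], hb.symm⟩
    · intro r hr r' hr' he
      rw [Finset.mem_coe, Finset.mem_filter, List.mem_toFinset] at hr hr'
      obtain ⟨hr, b, hb, hfb⟩ := hr
      obtain ⟨hr', b', hb', hfb'⟩ := hr'
      have he' : r.getLast? = r'.getLast? := he
      rw [hb, hb', Option.some.injEq] at he'
      subst he'
      exact h.uniq hr hr' (List.mem_of_getLast? hb) (List.mem_of_getLast? hb')
  · have hc2 : (((univ.filter (Per f)).image (orb f)).image some).card ≤ cyc f := by
      unfold cyc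
      exact Finset.card_image_le
    have key : ∀ r ∈ LL.toFinset.filter (fun r => ¬ ∃ b, r.getLast? = some b ∧ f b = none),
        ∃ h0 l0, r ∈ LL ∧ r.head? = some h0 ∧ r.getLast? = some l0 ∧ f l0 = some h0 := by
      intro r hr
      rw [Finset.mem_filter, List.mem_toFinset] at hr
      obtain ⟨hr, hno⟩ := hr
      obtain ⟨b, hb⟩ := hlast r hr
      have : f b ≠ none := fun h4 => hno ⟨b, hb, h4⟩
      obtain ⟨t, ht⟩ := Option.ne_none_iff_exists'.1 this
      exact ⟨t, b, hr, last_closed h hmin hr hb ht, hb, ht⟩
    refine le_trans (Finset.card_le_card_of_injOn (fun r => (r.head?).map (orb f)) ?_ ?_) hc2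
    · intro r hr
      obtain ⟨h0, l0, hr, hh, hl, hcl⟩ := key r hr
      rw [Finset.mem_coe, Finset.mem_image]
      refine ⟨orb f h0, ?_, by simp [hh]⟩
      rw [Finset.mem_image]
      refine ⟨h0, ?_, rfl⟩
      rw [Finset.mem_filter]
      refine ⟨mem_univ _, r.length, ?_, ?_⟩
      · exact List.length_pos_of_ne_nil (h.ne r hr)
      · cases r with
        | nil => simp at hh
        | cons a r =>
          simp only [List.head?_cons, Option.some.injEq] at hh
          subst hh
          rw [List.length_cons, pit_succ', run_pit (h.ch _ hr) hl]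
          exact hcl
    · intro r hr r' hr' he
      obtain ⟨h0, l0, hr, hh, hl, hcl⟩ := key r hr
      obtain ⟨h0', l0', hr', hh', hl', hcl'⟩ := key r' hr'
      have he' : (r.head?).map (orb f) = (r'.head?).map (orb f) := he
      rw [hh, hh', Option.map_some, Option.map_some, Option.some.injEq] at he'
      have h5 : h0' ∈ orb f h0 := by
        rw [he']
        exact self_mem_orb f h0'
      have h6 := orb_run (h.ch r hr) hh hl hcl h5
      exact h.uniq hr hr' h6 (List.mem_of_head? hh')

/-- **Numbering**: `f` is the successor map except for at most `(card S - domc f) + cyc f` elements. -/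
theorem exists_numbering [Fintype S] (f : S ≃. S) :
    ∃ (e : S ≃ Fin (Fintype.card S)) (B : Finset S),
      B.card ≤ (Fintype.card S - domc f) + cyc f ∧
      ∀ s, s ∉ B → ∃ t, f s = some t ∧ (e t).1 = (e s).1 + 1 := by
  classical
  -- minimal decomposition
  have hex : ∃ m, ∃ LL, Rns f LL ∧ LL.length = m := by
    obtain ⟨LL, h⟩ := exists_rns (f := f)
    exact ⟨_, LL, h, rfl⟩
  obtain ⟨LL, h, hm⟩ := Nat.find_spec hex
  have hmin : ∀ LL', Rns f LL' → LL.length ≤ LL'.length := by
    intro LL' h'
    rw [hm]
    exact Nat.find_min' hex ⟨LL', h', rfl⟩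
  have hlen := length_le h hmin
  let L := LL.flatten
  let e0 : Fin L.length ≃ S := List.Nodup.getEquivOfForallMemList L h.nd h.all
  have hcard : L.length = Fintype.card S := by
    have := Fintype.card_congr e0
    rwa [Fintype.card_fin] at this
  let e : S ≃ Fin (Fintype.card S) := e0.symm.trans (finCongr hcard)
  have he : ∀ (P Q : List S) (s : S), L = P ++ s :: Q → (e s).1 = P.length := by
    intro P Q s hL
    have hlt : P.length < L.length := by rw [hL]; simp
    have h1 : e0 ⟨P.length, hlt⟩ = s := by
      change L.get ⟨P.length, hlt⟩ = s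
      simp [hL]
    have h2 : e0.symm s = ⟨P.length, hlt⟩ := by rw [← h1, Equiv.symm_apply_apply]
    change ((e0.symm.trans (finCongr hcard)) s).1 = _
    rw [Equiv.trans_apply, h2]
    rfl
  refine ⟨e, (LL.filterMap List.getLast?).toFinset, ?_, ?_⟩
  · refine le_trans (List.toFinset_card_le _) (le_trans (List.length_filterMap_le _ _) hlen)
  · intro s hs
    obtain ⟨r, hr, hsr⟩ := h.mem s
    obtain ⟨u, v, rfl⟩ := List.append_of_mem hsr
    cases v with
    | nil =>
      exfalso
      apply hs
      rw [List.mem_toFinset, List.mem_filterMap]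
      exact ⟨_, hr, by rw [List.getLast?_append]; simp⟩
    | cons t v =>
      have h1 := (List.isChain_append.1 (h.ch _ hr)).2.1
      rw [List.isChain_cons] at h1
      refine ⟨t, h1.1 t (by simp), ?_⟩
      obtain ⟨A, C, hAC⟩ := List.append_of_mem hr
      have hL : L = (A.flatten ++ u) ++ s :: (t :: v ++ C.flatten) := by
        change LL.flatten = _
        rw [hAC]
        simp
      have hL' : L = (A.flatten ++ u ++ [s]) ++ t :: (v ++ C.flatten) := by
        rw [hL]
        simp
      rw [he _ _ _ hL, he _ _ _ hL']
      simp only [List.length_append, List.length_singleton]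

end Vale.Agent.P201.Z.Numb
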