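import Vale.Agent.P201.Z.LA.Pat
import Vale.Agent.P201.Z.LA.Skel

/-!
P201, part LA3: inequality (U) of the canonical realization gives `LevU` (helper576).
-/

namespace Vale.Agent.P201.Z

open Finset

variable {p : Pat} {n : ℕ} {σ : Equiv.Perm (Cel p n)}

namespace Glue

variable {G : Glue σ}

open Classical in
/-- the half-edges at irregular vertices -/
theorem ptn_H (hR : G.Red) (t : ℕ) (ht : 1 ≤ t) :
    (G.ptn hR t ht).H =
      (univ.filter fun q : Port p n => ¬ G.Reg (blk q.1) ∧ t ≤ G.mulP q).card := by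
  unfold Ptn.H
  refine Finset.card_bij (fun h _ => (G.rlz hR t ht).prt h) ?_ ?_ ?_
  · intro h hh
    rw [mem_filter] at hh
    rw [mem_filter]
    refine ⟨mem_univ _, ?_, ?_⟩
    · obtain ⟨v, hv⟩ := Sum.isLeft_iff.1 hh.2
      have h1 := (G.rlz hR t ht).hv h v hv
      rw [h1]
      exact v.2.1
    · exact h.1.2.trans (G.mulP_hc (h.1.1, h.2)).ge
  · intro h _ h' _ he
    exact (G.rlz hR t ht).inj he
  · intro q hq
    rw [mem_filter] at hq
    obtain ⟨-, h1, h2⟩ := hq
    have h3 : t ≤ G.mulP ((qh σ q).1, true) := by rw [mulP_qh]; exact h2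
    refine ⟨(⟨(qh σ q).1, h3⟩, (qh σ q).2), ?_, ?_⟩
    · rw [mem_filter]
      refine ⟨mem_univ _, ?_⟩
      have h4 : hc σ ((qh σ q).1, (qh σ q).2) = q := hc_qh q
      have h5 : t ≤ G.mulB (blk (hc σ ((qh σ q).1, (qh σ q).2)).1) := by
        rw [h4]
        exact h2.trans (mulP_le hR q)
      change (G.attQ t (hc σ ((qh σ q).1, (qh σ q).2)) h5).isLeft = true
      rw [attQ_congr (hm' := h2.trans (mulP_le hR q)) h4]
      unfold attQ
      rw [dif_neg h1]
      rfl
    · exact hc_qh q

open Classical in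
/-- the inequality of the level `t` -/
theorem levU_of_rlz (hR : G.Red) (t : ℕ) (ht : 1 ≤ t) (C1 K0 : ℝ)
    (hU : UIneq (G.rlz hR t ht) C1 K0) : G.LevU C1 K0 t := by
  have hE : Fintype.card (G.ptn hR t ht).E =
      (univ.filter fun c : Cel p n => t ≤ G.mulP (c, true)).card := by
    rw [← Fintype.card_subtype]
    exact Fintype.card_congr (Equiv.refl _)
  have hV : Fintype.card (G.ptn hR t ht).V =
      (univ.filter fun b : Blk p n => ¬ G.Reg b ∧ t ≤ G.mulB b).card := by
    rw [← Fintype.card_subtype]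
    exact Fintype.card_congr (Equiv.refl _)
  have hRc : Fintype.card (G.ptn hR t ht).R =
      (univ.filter fun b : Blk p n => G.Reg b ∧ t ≤ G.mulB b).card := by
    rw [← Fintype.card_subtype]
    exact Fintype.card_congr (Equiv.refl _)
  have hsplit : (univ.filter fun b : Blk p n => t ≤ G.mulB b).card =
      (univ.filter fun b : Blk p n => ¬ G.Reg b ∧ t ≤ G.mulB b).card +
      (univ.filter fun b : Blk p n => G.Reg b ∧ t ≤ G.mulB b).card := by
    rw [← Finset.card_filter_add_card_filter_not (s := univ.filter fun b : Blk p n => t ≤ G.mulB b)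
      (fun b => G.Reg b), filter_filter, filter_filter, add_comm]
    congr 2 <;> ext b <;> simp [and_comm]
  have h1 := hU
  unfold UIneq at h1
  have hH := ptn_H hR t ht
  have hdens : ∀ b (h : G.Reg b), rho p n (lam (G.u0 b h)) = G.dens b := by
    intro b h
    unfold dens
    rw [dif_pos h]
  have hsR : ∑ x : (G.ptn hR t ht).R,
      Real.log (rho p n ((G.rlz hR t ht).L ((G.ptn hR t ht).cl x).1)) =
      ∑ b ∈ univ.filter (fun b : Blk p n => G.Reg b ∧ t ≤ G.mulB b),
        Real.log (G.dens (G.rep b)) := by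
    rw [Finset.sum_subtype (univ.filter (fun b : Blk p n => G.Reg b ∧ t ≤ G.mulB b))
      (p := fun b : Blk p n => G.Reg b ∧ t ≤ G.mulB b) (by simp)
      (fun b => Real.log (G.dens (G.rep b)))]
    refine Fintype.sum_equiv (Equiv.refl _) _ _ fun x => ?_
    exact congrArg Real.log (hdens (G.rep x.1) x.2.1.rep_reg)
  have hsC : ∑ c : (G.ptn hR t ht).C,
      (Real.log 2 + 2 * Real.log (rho p n ((G.rlz hR t ht).L c))) =
      ∑ k ∈ (univ.filter (fun b : Blk p n => G.Reg b ∧ t ≤ G.mulB b)).image G.rep,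
          (Real.log 2 + 2 * Real.log (G.dens k)) := by
    rw [Finset.sum_subtype ((univ.filter (fun b : Blk p n => G.Reg b ∧ t ≤ G.mulB b)).image G.rep)
      (p := fun k : Blk p n => ∃ b, G.Reg b ∧ t ≤ G.mulB b ∧ G.rep b = k)
      (by intro k; simp [and_assoc])
      (fun k => Real.log 2 + 2 * Real.log (G.dens k))]
    refine Fintype.sum_equiv (Equiv.refl _) _ _ fun x => ?_
    exact congrArg (fun r : ℝ => Real.log 2 + 2 * Real.log r) (hdens x.1 (CT.reg x))
  rw [hsR, hsC, hE, hV, hRc, hH] at h1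
  unfold LevU
  rw [hsplit]
  push_cast at h1 ⊢
  have h3 : (((univ.filter fun c : Cel p n => t ≤ G.mulP (c, true)).card : ℝ) -
      ((univ.filter fun b : Blk p n => ¬ G.Reg b ∧ t ≤ G.mulB b).card +
      (univ.filter fun b : Blk p n => G.Reg b ∧ t ≤ G.mulB b).card)) =
      (((univ.filter fun c : Cel p n => t ≤ G.mulP (c, true)).card : ℝ) -
      (univ.filter fun b : Blk p n => ¬ G.Reg b ∧ t ≤ G.mulB b).card -
      (univ.filter fun b : Blk p n => G.Reg b ∧ t ≤ G.mulB b).card) := by ring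
  rw [h3]
  linarith

end Glue

end Vale.Agent.P201.Z
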