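import Vale.Agent.P201.Z.LA.Main
import Vale.Agent.P201.Z.LA.Rec
import Vale.Agent.P201.Z.LA.CodeMain
import Vale.Agent.P201.Z.LA.StCnt
import Vale.Agent.P201.Z.LA.Lev
import Vale.Agent.P201.Z.LA.NumS
import Vale.Agent.P201.Z.C.Rho
import Vale.Agent.P201.Z.C.UProof
import Vale.Agent.P201.Z.B.StmtB

/-!
P201: parts B + C + LA, `StmtLoc` without hypotheses.
-/

namespace Vale.Agent.P201.Z

theorem stmtLA : StmtLA := stmtLA_of stmtRho stmtRcd stmtCode stmtCnt stmtLev stmtNum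

theorem stmtLoc : StmtLoc := stmtLoc_of (stmtU stmtB stmtRho) stmtLA

end Vale.Agent.P201.Z
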